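import Mathlib
import Vale.Agent.P268.Hol
import Vale.Agent.P271.H408.Ext

/-!
# Removable singularities on the axes of `ℂ²` (helper749)
-/

set_option linter.all false

open Set Filter Topology Metric MeasureTheory
open scoped ENNReal ContDiff

namespace Vale.Agent.P300.Cpx

/-- model space -/
abbrev E2 := Fin 2 → ℂ

/-- off the axes -/
def offAx : Set E2 := {z | z 0 * z 1 ≠ 0}

theorem isOpen_offAx : IsOpen offAx :=
  isOpen_ne_fun (by fun_prop) continuous_const

theorem frequently_offAx (p : E2) : ∃ᶠ z in 𝓝 p, z 0 * z 1 ≠ 0 := by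
  rw [frequently_nhds_iff]
  intro U hp hU
  -- move both coordinates
  have hc : Continuous fun t : ℂ => (fun i => p i + t : E2) := by fun_prop
  have h0 : (fun i => p i + (0 : ℂ) : E2) = p := by ext i; simp
  have h1 : ∀ᶠ t : ℂ in 𝓝[≠] 0, (fun i => p i + t : E2) ∈ U := by
    apply Filter.Eventually.filter_mono nhdsWithin_le_nhds
    exact (hc.tendsto 0).eventually (by rw [h0]; exact hU.mem_nhds hp)
  have h2 : ∀ i, ∀ᶠ t : ℂ in 𝓝[≠] 0, p i + t ≠ 0 := by
    intro i
    by_cases hpi : p i = 0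
    · filter_upwards [self_mem_nhdsWithin] with t ht
      rw [hpi, zero_add]
      exact ht
    · apply Filter.Eventually.filter_mono nhdsWithin_le_nhds
      have : Tendsto (fun t : ℂ => p i + t) (𝓝 0) (𝓝 (p i)) := by
        have h3 : Continuous (fun t : ℂ => p i + t) := by fun_prop
        have h4 := h3.tendsto (0 : ℂ)
        rwa [add_zero] at h4
      exact this.eventually_ne hpi
  obtain ⟨t, ht1, ht2, ht3⟩ := (h1.and ((h2 0).and (h2 1))).exists
  exact ⟨_, ht1, mul_ne_zero ht2 ht3⟩

/-- a continuous function on an open subset of `ℂ²`, holomorphic off the axes, is holomorphic -/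
theorem diffOn_of_offAx {U : Set E2} (hU : IsOpen U) {f : E2 → ℂ} (hf : ContinuousOn f U)
    (hd : DifferentiableOn ℂ f (U ∩ offAx)) : DifferentiableOn ℂ f U := by
  have hL : ∀ p ∈ U, ∃ r > 0, ∫⁻ z in ball p r ∩ {z : E2 | z 0 * z 1 ≠ 0}, ‖f z‖ₑ ^ 2 ≠ ⊤ := by
    intro p hp
    obtain ⟨r, hr, hrU⟩ := Metric.isOpen_iff.1 hU p hp
    have hsub : closedBall p (r / 2) ⊆ U := (closedBall_subset_ball (by linarith)).trans hrU
    obtain ⟨C, hC⟩ := (isCompact_closedBall p (r / 2)).exists_bound_of_continuousOn (hf.mono hsub)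
    refine ⟨r / 2, by positivity, ?_⟩
    refine ne_of_lt (lt_of_le_of_lt (b := ∫⁻ z in ball p (r / 2), ENNReal.ofReal (C ^ 2)) ?_ ?_)
    · refine (lintegral_mono_set inter_subset_left).trans ?_
      refine setLIntegral_mono measurable_const ?_
      intro z hz
      have h1 := hC z (ball_subset_closedBall hz)
      have h0 : 0 ≤ C := (norm_nonneg _).trans h1
      rw [ENNReal.ofReal_pow h0]
      refine pow_le_pow_left' ?_ 2
      rw [← ofReal_norm_eq_enorm]
      exact ENNReal.ofReal_le_ofReal h1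
    · rw [setLIntegral_const]
      exact ENNReal.mul_lt_top ENNReal.ofReal_lt_top measure_ball_lt_top
  obtain ⟨F, hF, hFf⟩ := Vale.Agent.P271.H408.ext_L2 hU (h := fun z => z 0 * z 1) (f := f)
    (by fun_prop) (fun p _ => frequently_offAx p) hd hL
  · refine hF.congr ?_
    -- equality everywhere by continuity
    intro z hz
    by_contra hne
    have h1 : ContinuousAt f z := hf.continuousAt (hU.mem_nhds hz)
    have h2 : ContinuousAt F z := hF.continuousOn.continuousAt (hU.mem_nhds hz)
    have h3 : ∀ᶠ w in 𝓝 z, f w ≠ F w := (h1.ne_iff_eventually_ne h2).1 hne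
    obtain ⟨w, hw1, hw2, hw3⟩ := ((frequently_offAx z).and_eventually
      (h3.and (hU.mem_nhds hz))).exists
    exact hw2 (hFf w hw3 hw1).symm

theorem diffOn_of_offAx' {κ : Type*} [Fintype κ] {U : Set E2} (hU : IsOpen U) {f : E2 → κ → ℂ}
    (hf : ContinuousOn f U) (hd : DifferentiableOn ℂ f (U ∩ offAx)) : DifferentiableOn ℂ f U := by
  rw [differentiableOn_pi] at hd ⊢
  exact fun i => diffOn_of_offAx hU ((continuous_apply i).comp_continuousOn hf) (hd i)

theorem contDiffOn_of_diff {κ : Type*} [Fintype κ] {U : Set E2} (hU : IsOpen U) {f : E2 → κ → ℂ}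
    (hd : DifferentiableOn ℂ f U) : ContDiffOn ℂ ω f U :=
  (Vale.Agent.P268.analyticOnNhd_of_differentiableOn hU hd).contDiffOn hU.uniqueDiffOn

end Vale.Agent.P300.Cpx
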