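import Mathlib
import Vale.Agent.P300.H749.Rem
import Vale.Agent.P300.CoverDefs

/-!
# Complex structure on a completed covering (helper749)

`CpxAtlas X`: parametrisations `(e i).symm : ℂ² ⊇ Ω i → X` whose ranges cover `X`; a regular part
`Xr ⊆ X` which contains all points off the axes; a map `G : X → ℂ²` (the coordinates of the base),
which is a local biholomorphism in the charts at the regular points. Then the transition maps are
holomorphic everywhere.
-/

set_option linter.all false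

open Set Filter Topology Metric
open scoped ContDiff Manifold

namespace Vale.Agent.P300.Cpx

/-- charts of a completed covering -/
structure CpxAtlas (X : Type*) [TopologicalSpace X] where
  /-- index of the charts -/
  I : Type*
  /-- charts -/
  e : I → OpenPartialHomeomorph X E2
  cover : ∀ x, ∃ i, x ∈ (e i).source
  /-- regular part -/
  Xr : Set X
  Xr_open : IsOpen Xr
  reg : ∀ i, ∀ z ∈ (e i).target, z ∈ offAx → (e i).symm z ∈ Xr
  /-- coordinates of the base -/
  G : X → E2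
  G_diff : ∀ i, ∀ z ∈ (e i).target, (e i).symm z ∈ Xr →
    ∃ g' : E2 ≃L[ℂ] E2, HasFDerivAt (G ∘ (e i).symm) (g' : E2 →L[ℂ] E2) z

namespace CpxAtlas

variable {X X' : Type*} [TopologicalSpace X] [TopologicalSpace X'] (A : CpxAtlas X)
  (A' : CpxAtlas X')

/-- regular part of the range of a chart -/
def rt (i : A.I) : Set E2 := (A.e i).target ∩ (A.e i).symm ⁻¹' A.Xr

theorem rt_open (i : A.I) : IsOpen (A.rt i) :=
  (A.e i).symm.continuousOn.isOpen_inter_preimage (A.e i).open_target A.Xr_open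

theorem G_diffOn (i : A.I) : DifferentiableOn ℂ (A.G ∘ (A.e i).symm) (A.rt i) := by
  intro z hz
  obtain ⟨g', hg'⟩ := A.G_diff i z hz.1 hz.2
  exact hg'.differentiableAt.differentiableWithinAt

theorem G_strict (i : A.I) {z : E2} (hz : z ∈ A.rt i) :
    ∃ g' : E2 ≃L[ℂ] E2, HasStrictFDerivAt (A.G ∘ (A.e i).symm) (g' : E2 →L[ℂ] E2) z := by
  obtain ⟨g', hg'⟩ := A.G_diff i z hz.1 hz.2
  refine ⟨g', ?_⟩
  have h1 := Vale.Agent.P268.analyticOnNhd_of_differentiableOn (A.rt_open i) (A.G_diffOn i) z hz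
  have h2 := h1.hasStrictFDerivAt
  rwa [hg'.fderiv] at h2

/-- **Main lemma.** A continuous map over the base is holomorphic in the charts. -/
theorem diffOn_chart {V : Set X} (hV : IsOpen V) {s : X → X'} (hs : ContinuousOn s V)
    (hG : ∀ y ∈ V, y ∈ A.Xr → s y ∈ A'.Xr ∧ A'.G (s y) = A.G y) (i : A.I) (j : A'.I) :
    DifferentiableOn ℂ (A'.e j ∘ s ∘ (A.e i).symm)
      ((A.e i).target ∩ (A.e i).symm ⁻¹' (V ∩ s ⁻¹' (A'.e j).source)) := by
  have hW1 : IsOpen (V ∩ s ⁻¹' (A'.e j).source) := hs.isOpen_inter_preimage hV (A'.e j).open_source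
  set W : Set E2 := (A.e i).target ∩ (A.e i).symm ⁻¹' (V ∩ s ⁻¹' (A'.e j).source) with hW
  have hWo : IsOpen W :=
    (A.e i).symm.continuousOn.isOpen_inter_preimage (A.e i).open_target hW1
  have hTc : ContinuousOn (A'.e j ∘ s ∘ (A.e i).symm) W := by
    refine (A'.e j).continuousOn.comp (hs.comp ((A.e i).symm.continuousOn.mono ?_) ?_) ?_
    · exact fun z hz => hz.1
    · exact fun z hz => hz.2.1
    · exact fun z hz => hz.2.2
  refine diffOn_of_offAx' hWo hTc ?_
  intro z hz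
  obtain ⟨⟨hz1, hz2, hz3⟩, hz4⟩ := hz
  have hx := A.reg i z hz1 hz4
  obtain ⟨hsx, hGx⟩ := hG _ hz2 hx
  -- the local inverse of the coordinates
  set T := A'.e j ∘ s ∘ (A.e i).symm with hT
  have hTz : T z ∈ A'.rt j := by
    refine ⟨(A'.e j).map_source hz3, ?_⟩
    show (A'.e j).symm (A'.e j (s ((A.e i).symm z))) ∈ A'.Xr
    rw [(A'.e j).left_inv hz3]
    exact hsx
  obtain ⟨g', hg'⟩ := A'.G_strict j hTz
  have h1 : ∀ᶠ w in 𝓝 z, hg'.localInverse _ _ _ ((A'.G ∘ (A'.e j).symm) (T w)) = T w :=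
    (hTc.continuousAt (hWo.mem_nhds ⟨hz1, hz2, hz3⟩)).eventually hg'.eventually_left_inverse
  have h2 : ∀ᶠ w in 𝓝 z, T w = hg'.localInverse _ _ _ ((A.G ∘ (A.e i).symm) w) := by
    filter_upwards [h1, hWo.mem_nhds ⟨hz1, hz2, hz3⟩, (A.rt_open i).mem_nhds ⟨hz1, hx⟩]
      with w hw1 hw2 hw3
    rw [← hw1]
    congr 1
    show A'.G ((A'.e j).symm (A'.e j (s ((A.e i).symm w)))) = A.G ((A.e i).symm w)
    rw [(A'.e j).left_inv hw2.2.2]
    exact (hG _ hw2.2.1 hw3.2).2
  have h3 : (A.G ∘ (A.e i).symm) z = (A'.G ∘ (A'.e j).symm) (T z) := by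
    show A.G ((A.e i).symm z) = A'.G ((A'.e j).symm (A'.e j (s ((A.e i).symm z))))
    rw [(A'.e j).left_inv hz3, hGx]
  have h4 : DifferentiableAt ℂ (hg'.localInverse _ _ _) ((A.G ∘ (A.e i).symm) z) := by
    rw [h3]
    exact hg'.to_localInverse.hasFDerivAt.differentiableAt
  have h5 : DifferentiableAt ℂ (A.G ∘ (A.e i).symm) z := by
    obtain ⟨g'', hg''⟩ := A.G_diff i z hz1 hx
    exact hg''.differentiableAt
  exact ((h4.comp z h5).congr_of_eventuallyEq h2).differentiableWithinAt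

theorem diffOn_trans (i j : A.I) : DifferentiableOn ℂ (A.e j ∘ (A.e i).symm)
    ((A.e i).target ∩ (A.e i).symm ⁻¹' (A.e j).source) := by
  have h := A.diffOn_chart A isOpen_univ (s := id) continuousOn_id (fun y _ hy => ⟨hy, rfl⟩) i j
  simpa using h

/-- the charted space -/
@[reducible] noncomputable def charted : ChartedSpace E2 X where
  atlas := range A.e
  chartAt x := A.e (A.cover x).choose
  mem_chart_source x := (A.cover x).choose_spec
  chart_mem_atlas x := mem_range_self _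

theorem isManifold : letI := A.charted; IsManifold 𝓘(ℂ, E2) ω X := by
  letI := A.charted
  refine isManifold_of_contDiffOn 𝓘(ℂ, E2) ω X ?_
  rintro _ _ ⟨i, rfl⟩ ⟨j, rfl⟩
  have h1 := contDiffOn_of_diff ((A.e i).symm.continuousOn.isOpen_inter_preimage
    (A.e i).open_target (A.e j).open_source) (A.diffOn_trans i j)
  simpa using h1

theorem e_contMDiffOn (i : A.I) : letI := A.charted
    ContMDiffOn 𝓘(ℂ, E2) 𝓘(ℂ, E2) ω (A.e i) (A.e i).source := by
  letI := A.charted
  haveI := A.isManifold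
  exact contMDiffOn_of_mem_maximalAtlas (IsManifold.subset_maximalAtlas (mem_range_self i))

theorem e_symm_contMDiffOn (i : A.I) : letI := A.charted
    ContMDiffOn 𝓘(ℂ, E2) 𝓘(ℂ, E2) ω (A.e i).symm (A.e i).target := by
  letI := A.charted
  haveI := A.isManifold
  exact contMDiffOn_symm_of_mem_maximalAtlas (IsManifold.subset_maximalAtlas (mem_range_self i))

/-- **Maps over the base are holomorphic.** -/
theorem contMDiffOn_over {V : Set X} (hV : IsOpen V) {s : X → X'} (hs : ContinuousOn s V)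
    (hG : ∀ y ∈ V, y ∈ A.Xr → s y ∈ A'.Xr ∧ A'.G (s y) = A.G y) :
    letI := A.charted; letI := A'.charted
    ContMDiffOn 𝓘(ℂ, E2) 𝓘(ℂ, E2) ω s V := by
  letI := A.charted
  letI := A'.charted
  intro x hx
  obtain ⟨i, hi⟩ := A.cover x
  obtain ⟨j, hj⟩ := A'.cover (s x)
  have hW1 : IsOpen (V ∩ s ⁻¹' (A'.e j).source) := hs.isOpen_inter_preimage hV (A'.e j).open_source
  have hWo : IsOpen ((A.e i).target ∩ (A.e i).symm ⁻¹' (V ∩ s ⁻¹' (A'.e j).source)) :=
    (A.e i).symm.continuousOn.isOpen_inter_preimage (A.e i).open_target hW1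
  have h1 : ContMDiffOn 𝓘(ℂ, E2) 𝓘(ℂ, E2) ω (A'.e j ∘ s ∘ (A.e i).symm)
      ((A.e i).target ∩ (A.e i).symm ⁻¹' (V ∩ s ⁻¹' (A'.e j).source)) :=
    (contDiffOn_of_diff hWo (A.diffOn_chart A' hV hs hG i j)).contMDiffOn
  set N : Set X := (A.e i).source ∩ (V ∩ s ⁻¹' (A'.e j).source) with hN
  have hNo : IsOpen N := (A.e i).open_source.inter hW1
  have h2 : ContMDiffOn 𝓘(ℂ, E2) 𝓘(ℂ, E2) ω
      ((A'.e j).symm ∘ (A'.e j ∘ s ∘ (A.e i).symm) ∘ (A.e i)) N := by
    refine (A'.e_symm_contMDiffOn j).comp (h1.comp ((A.e_contMDiffOn i).mono inter_subset_left) ?_) ?_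
    · intro y hy
      refine ⟨(A.e i).map_source hy.1, ?_⟩
      show (A.e i).symm (A.e i y) ∈ V ∩ s ⁻¹' (A'.e j).source
      rw [(A.e i).left_inv hy.1]
      exact hy.2
    · intro y hy
      show A'.e j (s ((A.e i).symm (A.e i y))) ∈ (A'.e j).target
      rw [(A.e i).left_inv hy.1]
      exact (A'.e j).map_source hy.2.2
  have h3 : ContMDiffOn 𝓘(ℂ, E2) 𝓘(ℂ, E2) ω s N := by
    refine h2.congr ?_
    intro y hy
    show s y = (A'.e j).symm (A'.e j (s ((A.e i).symm (A.e i y))))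
    rw [(A.e i).left_inv hy.1, (A'.e j).left_inv hy.2.2]
  exact ((h3 x ⟨hi, hx, hj⟩).contMDiffAt (hNo.mem_nhds ⟨hi, hx, hj⟩)).contMDiffWithinAt

theorem contMDiff_over {s : X → X'} (hs : Continuous s)
    (hG : ∀ y ∈ A.Xr, s y ∈ A'.Xr ∧ A'.G (s y) = A.G y) :
    letI := A.charted; letI := A'.charted
    ContMDiff 𝓘(ℂ, E2) 𝓘(ℂ, E2) ω s := by
  letI := A.charted
  letI := A'.charted
  rw [← contMDiffOn_univ]
  exact A.contMDiffOn_over A' isOpen_univ hs.continuousOn (fun y _ hy => hG y hy)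

/-- a local homeomorphism over the base is a local biholomorphism -/
theorem isLocalDiffeomorph {s : X → X'} (hs : IsLocalHomeomorph s)
    (hr : ∀ y, s y ∈ A'.Xr ↔ y ∈ A.Xr) (hG : ∀ y ∈ A.Xr, A'.G (s y) = A.G y) :
    letI := A.charted; letI := A'.charted
    IsLocalDiffeomorph 𝓘(ℂ, E2) 𝓘(ℂ, E2) ω s := by
  letI := A.charted
  letI := A'.charted
  intro x
  obtain ⟨φ, hx, hφ⟩ := hs x
  subst hφ
  refine ⟨⟨φ.toPartialEquiv, φ.open_source, φ.open_target, ?_, ?_⟩, hx, fun y _ => rfl⟩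
  · exact A.contMDiffOn_over A' φ.open_source φ.continuousOn
      (fun y _ hy => ⟨(hr y).2 hy, hG y hy⟩)
  · refine A'.contMDiffOn_over A φ.open_target φ.symm.continuousOn (fun y hy hy' => ?_)
    have h1 : φ (φ.symm y) = y := φ.right_inv hy
    have h2 : φ.symm y ∈ A.Xr := (hr _).1 (by rw [h1]; exact hy')
    refine ⟨h2, ?_⟩
    have h3 := hG _ h2
    rw [h1] at h3
    exact h3.symm

/-- a covering over the base is a holomorphic covering -/
theorem isHolomorphicCovering {s : X → X'} (hs : IsCoveringMap s) (hsurj : Function.Surjective s)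
    (hr : ∀ y, s y ∈ A'.Xr ↔ y ∈ A.Xr) (hG : ∀ y ∈ A.Xr, A'.G (s y) = A.G y) :
    letI := A.charted; letI := A'.charted
    IsHolomorphicCovering E2 s := by
  letI := A.charted
  letI := A'.charted
  exact ⟨hs, hsurj, A.isLocalDiffeomorph A' hs.isLocalHomeomorph hr hG⟩

/-- functions which are holomorphic in the charts off the axes are holomorphic -/
theorem contMDiff_fun {κ : Type*} [Fintype κ] {f : X → κ → ℂ} (hf : Continuous f)
    (hd : ∀ i, DifferentiableOn ℂ (f ∘ (A.e i).symm) ((A.e i).target ∩ offAx)) :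
    letI := A.charted
    ContMDiff 𝓘(ℂ, E2) 𝓘(ℂ, κ → ℂ) ω f := by
  letI := A.charted
  intro x
  obtain ⟨i, hi⟩ := A.cover x
  have h1 : ContMDiffOn 𝓘(ℂ, E2) 𝓘(ℂ, κ → ℂ) ω (f ∘ (A.e i).symm) (A.e i).target :=
    (contDiffOn_of_diff (A.e i).open_target (diffOn_of_offAx' (A.e i).open_target
      (hf.comp_continuousOn (A.e i).symm.continuousOn) (hd i))).contMDiffOn
  have h2 : ContMDiffOn 𝓘(ℂ, E2) 𝓘(ℂ, κ → ℂ) ω ((f ∘ (A.e i).symm) ∘ (A.e i)) (A.e i).source :=
    h1.comp (A.e_contMDiffOn i) (fun y hy => (A.e i).map_source hy)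
  have h3 : ContMDiffOn 𝓘(ℂ, E2) 𝓘(ℂ, κ → ℂ) ω f (A.e i).source := by
    refine h2.congr ?_
    intro y hy
    show f y = f ((A.e i).symm (A.e i y))
    rw [(A.e i).left_inv hy]
  exact (h3 x hi).contMDiffAt ((A.e i).open_source.mem_nhds hi)

end CpxAtlas

end Vale.Agent.P300.Cpx
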