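import Mathlib
import Vale.Agent.P300.H749.Cpx

/-!
# `CpxAtlas` from open embeddings (helper749)
-/

set_option linter.all false

open Set Filter Topology Metric
open scoped ContDiff Manifold

namespace Vale.Agent.P300.Cpx

/-- chart from an open embedding of an open subset of the model space -/
noncomputable def mkChart {X : Type*} [TopologicalSpace X] {Ω : Set E2} (hΩ : IsOpen Ω)
    (hne : Ω.Nonempty) {hat : Ω → X} (h : IsOpenEmbedding hat) : OpenPartialHomeomorph X E2 :=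
  haveI : Nonempty Ω := hne.to_subtype
  (h.toOpenPartialHomeomorph hat).symm.trans
    (hΩ.isOpenEmbedding_subtypeVal.toOpenPartialHomeomorph Subtype.val)

section
variable {X : Type*} [TopologicalSpace X] {Ω : Set E2} (hΩ : IsOpen Ω)
    (hne : Ω.Nonempty) {hat : Ω → X} (h : IsOpenEmbedding hat)

@[simp] theorem mkChart_source : (mkChart hΩ hne h).source = range hat := by
  unfold mkChart
  simp

@[simp] theorem mkChart_target : (mkChart hΩ hne h).target = Ω := by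
  unfold mkChart
  simp

theorem mkChart_hat (z : Ω) : mkChart hΩ hne h (hat z) = z := by
  haveI : Nonempty Ω := hne.to_subtype
  show ((h.toOpenPartialHomeomorph hat).symm (hat z) : E2) = z
  rw [h.toOpenPartialHomeomorph_left_inv]

theorem mkChart_symm (z : Ω) : (mkChart hΩ hne h).symm z = hat z := by
  haveI : Nonempty Ω := hne.to_subtype
  show hat ((hΩ.isOpenEmbedding_subtypeVal.toOpenPartialHomeomorph Subtype.val).symm z) = hat z
  rw [hΩ.isOpenEmbedding_subtypeVal.toOpenPartialHomeomorph_left_inv]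

theorem mkChart_symm' {z : E2} (hz : z ∈ Ω) : (mkChart hΩ hne h).symm z = hat ⟨z, hz⟩ :=
  mkChart_symm hΩ hne h ⟨z, hz⟩

end

/-- **Charts from open embeddings.** -/
noncomputable def CpxAtlas.ofEmb {X : Type*} [TopologicalSpace X] {I : Type*} (Ω : I → Set E2)
    (hΩ : ∀ i, IsOpen (Ω i)) (hne : ∀ i, (Ω i).Nonempty) (hat : ∀ i, Ω i → X)
    (emb : ∀ i, IsOpenEmbedding (hat i)) (cover : ∀ x, ∃ i, x ∈ range (hat i))
    (Xr : Set X) (Xr_open : IsOpen Xr)
    (reg : ∀ i (z : Ω i), (z : E2) 0 ≠ 0 → (z : E2) 1 ≠ 0 → hat i z ∈ Xr)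
    (G : X → E2)
    (G_diff : ∀ i (z : Ω i), hat i z ∈ Xr → ∃ g' : E2 ≃L[ℂ] E2, ∃ g : E2 → E2,
      HasFDerivAt g (g' : E2 →L[ℂ] E2) (z : E2) ∧
        ∀ w : Ω i, hat i w ∈ Xr → G (hat i w) = g w) : CpxAtlas X where
  I := I
  e i := mkChart (hΩ i) (hne i) (emb i)
  cover x := by
    obtain ⟨i, hi⟩ := cover x
    exact ⟨i, by rwa [mkChart_source]⟩
  Xr := Xr
  Xr_open := Xr_open
  reg i z hz hz' := by
    rw [mkChart_target] at hz
    rw [mkChart_symm' _ _ _ hz]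
    exact reg i ⟨z, hz⟩ (fun h => hz' (by rw [show z 0 = 0 from h, zero_mul]))
      (fun h => hz' (by rw [show z 1 = 0 from h, mul_zero]))
  G := G
  G_diff i z hz hz' := by
    have hzΩ : z ∈ Ω i := by rwa [mkChart_target] at hz
    have hz2 : hat i ⟨z, hzΩ⟩ ∈ Xr := by rwa [mkChart_symm' _ _ _ hzΩ] at hz'
    obtain ⟨g', g, hg, hgG⟩ := G_diff i ⟨z, hzΩ⟩ hz2
    refine ⟨g', hg.congr_of_eventuallyEq ?_⟩
    have ho : IsOpen ((mkChart (hΩ i) (hne i) (emb i)).target ∩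
        (mkChart (hΩ i) (hne i) (emb i)).symm ⁻¹' Xr) :=
      (mkChart (hΩ i) (hne i) (emb i)).symm.continuousOn.isOpen_inter_preimage
        (mkChart (hΩ i) (hne i) (emb i)).open_target Xr_open
    filter_upwards [ho.mem_nhds ⟨hz, hz'⟩] with w hw
    have hwΩ : w ∈ Ω i := by
      have := hw.1
      rwa [mkChart_target] at this
    have hw2 : (mkChart (hΩ i) (hne i) (emb i)).symm w ∈ Xr := hw.2
    show G ((mkChart (hΩ i) (hne i) (emb i)).symm w) = g w
    rw [mkChart_symm' _ _ _ hwΩ] at hw2 ⊢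
    exact hgG ⟨w, hwΩ⟩ hw2

/-- the derivative of `(u, v) ↦ (u ^ p, v ^ q)` is bijective off the axes -/
theorem hasFDerivAt_pow2 {p q : ℕ} (hp : p ≠ 0) (hq : q ≠ 0) {z : E2} (h0 : z 0 ≠ 0)
    (h1 : z 1 ≠ 0) : ∃ g' : E2 ≃L[ℂ] E2,
      HasFDerivAt (fun w : E2 => (![w 0 ^ p, w 1 ^ q] : E2)) (g' : E2 →L[ℂ] E2) z := by
  have ha : (p : ℂ) * z 0 ^ (p - 1) ≠ 0 := mul_ne_zero (by exact_mod_cast hp) (pow_ne_zero _ h0)
  have hb : (q : ℂ) * z 1 ^ (q - 1) ≠ 0 := mul_ne_zero (by exact_mod_cast hq) (pow_ne_zero _ h1)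
  set c : Fin 2 → ℂ := ![(p : ℂ) * z 0 ^ (p - 1), (q : ℂ) * z 1 ^ (q - 1)] with hc
  have hcne : ∀ i, c i ≠ 0 := by
    intro i
    fin_cases i
    · exact ha
    · exact hb
  let g' : E2 ≃L[ℂ] E2 := ContinuousLinearEquiv.piCongrRight fun i =>
    ContinuousLinearEquiv.unitsEquivAut ℂ (Units.mk0 (c i) (hcne i))
  refine ⟨g', ?_⟩
  rw [hasFDerivAt_pi']
  intro i
  fin_cases i
  · have h2 : HasFDerivAt (fun w : E2 => w 0) (ContinuousLinearMap.proj 0 : E2 →L[ℂ] ℂ) z :=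
      (ContinuousLinearMap.proj (R := ℂ) (φ := fun _ : Fin 2 => ℂ) 0).hasFDerivAt
    have h3 := h2.pow p
    refine h3.congr_fderiv ?_
    ext v
    simp [g', hc]
    ring
  · have h2 : HasFDerivAt (fun w : E2 => w 1) (ContinuousLinearMap.proj 1 : E2 →L[ℂ] ℂ) z :=
      (ContinuousLinearMap.proj (R := ℂ) (φ := fun _ : Fin 2 => ℂ) 1).hasFDerivAt
    have h3 := h2.pow q
    refine h3.congr_fderiv ?_
    ext v
    simp [g', hc]
    ring

end Vale.Agent.P300.Cpx
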