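import Vale.Agent.P300.H749.Inst2
import Vale.Agent.P300.H753.Hom

/-!
# The coverings `X_{F'} → X_F` are holomorphic (helper749)
-/

set_option linter.all false

open Set Filter Topology Metric
open scoped ContDiff Manifold

namespace Vale.Agent.P300.Cpx

open Vale.Agent.P300.H573 Vale.Agent.P300.Mod Vale.Agent.P300.H753

variable {S S' X0 X0' Y : Type} [TopologicalSpace X0] [TopologicalSpace X0'] [TopologicalSpace Y]
  {pr : X0 → H142.U} {pr' : X0' → H142.U} [T2Space Y] [LocallyCompactSpace Y]
  {D : Lifts H142.R kapU pr S} {D' : Lifts H142.R kapU pr' S'} {f : S' → S} {g : X0' → X0}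

/-- **The covering of the completions is holomorphic.** -/
theorem isHolomorphicCovering_F (H : LHom D' D f g) (hf : Function.Surjective f)
    (E : YData H142.R kapU Y) :
    letI := (cpxF D E).atlas.charted; letI := (cpxF D' E).atlas.charted
    IsHolomorphicCovering E2 (H.hom E).ext :=
  isHolomorphicCovering_ext (cpxF D E) (cpxF D' E) (H.hom E) (H.isCoveringMap_ext E)
    (H.surjective_ext hf E) (fun i' p h => (H.hom_M0 E i' p).1 h)
    (fun x => by
      show toE2 (pr (g x) : ℂ × ℂ) = toE2 (pr' x : ℂ × ℂ)
      rw [H.hpr])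

end Vale.Agent.P300.Cpx
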