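import Vale.Agent.P300.H749.Inst
import Vale.Agent.P300.H933.EmbD
import Vale.Agent.P300.H232.StmtS

/-!
# Holomorphic maps from `X_F` to `ℙ¹` (helper749)
-/

set_option linter.all false

open Set Filter Topology Metric
open scoped ContDiff Manifold OnePoint LinearAlgebra.Projectivization

namespace Vale.Agent.P300.Cpx

open Vale.Agent.P300.H573 Vale.Agent.P300.Mod Vale.Agent.P300.H753

section P1

variable {X : Type*} [TopologicalSpace X] (A : CpxAtlas X)

theorem val_eq_fin0 (c : OnePoint ℂ) : Emb.val c = ASM.fin0 c := by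
  induction c using OnePoint.rec <;> rfl

theorem ival_eq_finI (c : OnePoint ℂ) : Emb.ival c = ASM.finI c := by
  induction c using OnePoint.rec <;> rfl

/-- **Continuous maps to the Riemann sphere which are finite and holomorphic in the charts off the
axes are holomorphic.** -/
theorem isHolP1_of_charts {f : X → OnePoint ℂ} (hf : Continuous f)
    (hd : ∀ i, ∃ g : E2 → ℂ, DifferentiableOn ℂ g ((A.e i).target ∩ offAx) ∧
      ∀ z ∈ (A.e i).target ∩ offAx, f ((A.e i).symm z) = ((g z : ℂ) : OnePoint ℂ)) :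
    letI := A.charted
    Emb.IsHolP1 E2 f := by
  letI := A.charted
  choose g hg hfg using hd
  refine ⟨hf, ?_, ?_⟩
  · have hW : IsOpen {y : X | f y ≠ OnePoint.infty} := isOpen_ne_fun hf continuous_const
    simp only [val_eq_fin0]
    refine ASM.contMDiffOn_scalar A hW ?_ ?_
    · intro y hy
      exact (ContinuousAt.comp (f := f) (g := ASM.fin0) (ASM.continuousAt_fin0 hy)
        hf.continuousAt).continuousWithinAt
    · intro i
      refine ((hg i).mono fun z hz => ⟨hz.1.1, hz.2⟩).congr ?_
      intro z hz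
      show ASM.fin0 (f ((A.e i).symm z)) = _
      rw [hfg i z ⟨hz.1.1, hz.2⟩, ASM.fin0_coe]
  · have hW : IsOpen {y : X | f y ≠ ((0 : ℂ) : OnePoint ℂ)} := isOpen_ne_fun hf continuous_const
    simp only [ival_eq_finI]
    refine ASM.contMDiffOn_scalar A hW ?_ ?_
    · intro y hy
      exact (ContinuousAt.comp (f := f) (g := ASM.finI) (ASM.continuousAt_finI hy)
        hf.continuousAt).continuousWithinAt
    · intro i
      have h1 : DifferentiableOn ℂ (fun z => (g i z)⁻¹)
          ((A.e i).target ∩ (A.e i).symm ⁻¹' {y | f y ≠ ((0 : ℂ) : OnePoint ℂ)} ∩ offAx) := by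
        refine ((hg i).mono fun z hz => ⟨hz.1.1, hz.2⟩).inv ?_
        intro z hz h0
        have h2 := hfg i z ⟨hz.1.1, hz.2⟩
        rw [h0] at h2
        exact hz.1.2 h2
      refine h1.congr ?_
      intro z hz
      show ASM.finI (f ((A.e i).symm z)) = _
      rw [hfg i z ⟨hz.1.1, hz.2⟩, ASM.finI_coe]

end P1

/-! ### `OnePoint ℂ` and `ℙ¹(ℂ)` -/

/-- homogeneous coordinates of a point of `OnePoint ℂ` -/
noncomputable def hc1 (c : OnePoint ℂ) : Fin (1 + 1) → ℂ := c.elim ![1, 0] (fun z => ![z, 1])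

theorem hc1_infty : hc1 OnePoint.infty = ![1, 0] := rfl

theorem hc1_coe (z : ℂ) : hc1 (z : OnePoint ℂ) = ![z, 1] := rfl

theorem hc1_ne (c : OnePoint ℂ) : hc1 c ≠ 0 := by
  induction c using OnePoint.rec with
  | infty =>
    intro h
    have := congrFun h 0
    simp [hc1_infty] at this
  | coe z =>
    intro h
    have := congrFun h 1
    simp [hc1_coe] at this

/-- `OnePoint ℂ = ℙ¹(ℂ)` -/
noncomputable def toP1 (c : OnePoint ℂ) : ℙ ℂ (Fin (1 + 1) → ℂ) :=
  Projectivization.mk ℂ (hc1 c) (hc1_ne c)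

theorem toP1_injective : Function.Injective toP1 := by
  intro c d h
  unfold toP1 at h
  rw [Projectivization.mk_eq_mk_iff'] at h
  obtain ⟨a, ha⟩ := h
  have h0 := congrFun ha 0
  have h1 := congrFun ha 1
  induction c using OnePoint.rec with
  | infty =>
    induction d using OnePoint.rec with
    | infty => rfl
    | coe w =>
      simp [hc1_infty, hc1_coe] at h0 h1
      rw [h1] at h0
      simp at h0
  | coe z =>
    induction d using OnePoint.rec with
    | infty =>
      simp [hc1_infty, hc1_coe] at h1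
    | coe w =>
      simp [hc1_coe] at h0 h1
      rw [h1, one_mul] at h0
      rw [h0]

section toProj

variable {E : Type*} [NormedAddCommGroup E] [NormedSpace ℂ E] {X : Type*} [TopologicalSpace X]
  [ChartedSpace E X]

/-- holomorphic maps to `OnePoint ℂ` as holomorphic maps to `ℙ¹(ℂ)` -/
theorem isHolomorphicToProjective_of_holP1 {c : X → OnePoint ℂ} (hc : Emb.IsHolP1 E c) :
    IsHolomorphicToProjective E (fun x => toP1 (c x)) := by
  intro x
  by_cases hx : c x = OnePoint.infty
  · refine ⟨{y | c y ≠ ((0 : ℂ) : OnePoint ℂ)}, fun y => ![1, Emb.ival (c y)],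
      isOpen_ne_fun hc.cont continuous_const, ?_, ?_, ?_⟩
    · show c x ≠ _
      rw [hx]
      exact OnePoint.infty_ne_coe _
    · rw [contMDiffOn_pi_space]
      intro i
      fin_cases i
      · exact contMDiffOn_const
      · exact hc.inf
    · intro y hy
      have hy' : c y ≠ ((0 : ℂ) : OnePoint ℂ) := hy
      have h1 : (![1, Emb.ival (c y)] : Fin (1 + 1) → ℂ) ≠ 0 := by
        intro h
        have := congrFun h 0
        simp at this
      refine ⟨h1, ?_⟩
      unfold toP1
      rw [Projectivization.mk_eq_mk_iff']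
      show ∃ a : ℂ, a • (![1, Emb.ival (c y)] : Fin (1 + 1) → ℂ) = hc1 (c y)
      clear hy h1
      revert hy'
      generalize c y = d
      intro hy'
      induction d using OnePoint.rec with
      | infty =>
        refine ⟨1, ?_⟩
        rw [one_smul]
        rfl
      | coe z =>
        have hz0 : z ≠ 0 := fun h => hy' (by rw [h])
        refine ⟨z, ?_⟩
        ext i
        fin_cases i
        · simp [hc1_coe]
        · simp [hc1_coe, hz0]
  · refine ⟨{y | c y ≠ OnePoint.infty}, fun y => ![Emb.val (c y), 1],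
      isOpen_ne_fun hc.cont continuous_const, hx, ?_, ?_⟩
    · rw [contMDiffOn_pi_space]
      intro i
      fin_cases i
      · exact hc.fin
      · exact contMDiffOn_const
    · intro y hy
      have hy' : c y ≠ OnePoint.infty := hy
      have h1 : (![Emb.val (c y), 1] : Fin (1 + 1) → ℂ) ≠ 0 := by
        intro h
        have := congrFun h 1
        simp at this
      refine ⟨h1, ?_⟩
      unfold toP1
      rw [Projectivization.mk_eq_mk_iff']
      show ∃ a : ℂ, a • (![Emb.val (c y), 1] : Fin (1 + 1) → ℂ) = hc1 (c y)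
      clear hy h1
      revert hy'
      generalize c y = d
      intro hy'
      induction d using OnePoint.rec with
      | infty => exact absurd rfl hy'
      | coe z =>
        refine ⟨1, ?_⟩
        rw [one_smul]
        rfl

end toProj

/-! ### the coordinates of `Y` on `X_F` -/

section frozen

variable {S X0 Y : Type} [TopologicalSpace X0] [TopologicalSpace Y] {pr : X0 → H142.U}
  [T2Space Y] [LocallyCompactSpace Y]
  (D : Lifts H142.R kapU pr S) (E : YData H142.R kapU Y)

theorem atlas_target_F (i : D.I) : ((cpxF D E).atlas.e i).target = OmE H142.R (D.pp i) (D.qq i) :=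
  (cpxF D E).atlas_target i

theorem atlas_symm_F (i : D.I) (z : OmE H142.R (D.pp i) (D.qq i)) :
    ((cpxF D E).atlas.e i).symm z = (D.models E).hat i z := (cpxF D E).atlas_symm i z

theorem proj_symm_F (i : D.I) {z : E2} (hz : z ∈ OmE H142.R (D.pp i) (D.qq i)) :
    (D.models E).proj (((cpxF D E).atlas.e i).symm z) =
      E.kY i.1 (pw (D.pp i) (D.qq i) (toP z)) := by
  rw [atlas_symm_F D E i ⟨z, hz⟩]
  exact (D.models E).proj_hat (i : (D.models E).I) (⟨z, hz⟩ : D.M i)

/-- **Holomorphy of the coordinates.** `c : Y → OnePoint ℂ` continuous, `c = g` on `U`. -/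
theorem isHolP1_F {c : Y → OnePoint ℂ} (hc : Continuous c) {g : ℂ × ℂ → ℂ}
    (hg : DifferentiableOn ℂ g H142.U)
    (hcg : ∀ u : H142.U, c (E.inc u) = ((g (u : ℂ × ℂ) : ℂ) : OnePoint ℂ)) :
    letI := (cpxF D E).atlas.charted
    Emb.IsHolP1 E2 (fun x => c ((D.models E).proj x)) := by
  refine isHolP1_of_charts (cpxF D E).atlas (hc.comp (D.models E).continuous_proj) ?_
  intro i
  change D.I at i
  refine ⟨fun z => g (H142.kap i.1 (pw (D.pp i) (D.qq i) (toP z))), ?_, ?_⟩
  · intro z hz
    rw [atlas_target_F] at hz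
    obtain ⟨hz1, hz2⟩ := hz
    have h0 : z 0 ≠ 0 := left_ne_zero_of_mul hz2
    have h1 : z 1 ≠ 0 := right_ne_zero_of_mul hz2
    have hw : pw (D.pp i) (D.qq i) (toP z) ∈ Rp H142.R := pw_mem_Rp ⟨hz1, h0, h1⟩
    have hW := Rp_subset_W hw
    have hgd : DifferentiableAt ℂ g (H142.kap i.1 (pw (D.pp i) (D.qq i) (toP z))) :=
      hg.differentiableAt (Spec.isOpen_U.mem_nhds (Spec.kap_mem i.1 hW))
    have hk : DifferentiableAt ℂ (H142.kap i.1) (pw (D.pp i) (D.qq i) (toP z)) :=
      H749.differentiableAt_kap i.1 hW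
    have hp : DifferentiableAt ℂ (fun z : E2 => pw (D.pp i) (D.qq i) (toP z)) z := by
      show DifferentiableAt ℂ (fun z : E2 => (z 0 ^ (D.pp i), z 1 ^ (D.qq i))) z
      fun_prop
    exact (hgd.comp z (hk.comp z hp)).differentiableWithinAt
  · intro z hz
    rw [atlas_target_F] at hz
    obtain ⟨hz1, hz2⟩ := hz
    have h0 : z 0 ≠ 0 := left_ne_zero_of_mul hz2
    have h1 : z 1 ≠ 0 := right_ne_zero_of_mul hz2
    have hw : pw (D.pp i) (D.qq i) (toP z) ∈ Rp H142.R := pw_mem_Rp ⟨hz1, h0, h1⟩
    show c ((D.models E).proj (((cpxF D E).atlas.e i).symm z)) = _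
    rw [proj_symm_F D E i hz1, ← E.inc_kap i.1 _ hw, hcg, kapU_val (Rp_subset_W hw)]

/-- **The finite map of `X_F` to `(ℙ¹)ⁿ`**, in helper232's form. -/
theorem exists_finite_map_F [Finite S] {n : ℕ} {c : Fin n → Y → OnePoint ℂ}
    (hc : ∀ j, Continuous (c j)) {g : Fin n → ℂ × ℂ → ℂ}
    (hg : ∀ j, DifferentiableOn ℂ (g j) H142.U)
    (hcg : ∀ j, ∀ u : H142.U, c j (E.inc u) = ((g j (u : ℂ × ℂ) : ℂ) : OnePoint ℂ))
    (hsep : ∀ y y', (∀ j, c j y = c j y') → y = y') :
    letI := (cpxF D E).atlas.charted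
    ∃ F : Fin n → (D.models E).Cmp → ℙ ℂ (Fin (1 + 1) → ℂ),
      (∀ j, IsHolomorphicToProjective E2 (F j)) ∧
      ∀ x, {y | ∀ j, F j y = F j x}.Finite := by
  letI := (cpxF D E).atlas.charted
  refine ⟨fun j x => toP1 (c j ((D.models E).proj x)), fun j => ?_, fun x => ?_⟩
  · exact isHolomorphicToProjective_of_holP1 (isHolP1_F D E (hc j) (hg j) (hcg j))
  · refine (finite_fibre_F D E ((D.models E).proj x)).subset ?_
    intro y hy
    exact hsep _ _ fun j => toP1_injective (hy j)

end frozen

end Vale.Agent.P300.Cpx
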