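import Mathlib
import Vale.Agent.P300.H573.CmpCov
import Vale.Agent.P300.H749.CpxEmb

/-!
# Complex structure on the completion `D.Cmp` of 573 (helper749)

`CpxModels D`: every model `D.M i` is identified with an open subset `Ω i` of `ℂ²` (all points off
the axes are regular) and `G0 : X0 → ℂ²` (coordinates of the base) is a local biholomorphism in the
regular points of the models.
-/

set_option linter.all false

open Set Filter Topology Metric
open scoped ContDiff Manifold

namespace Vale.Agent.P300.Cpx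

open Vale.Agent.P300.H573

/-- a map into any manifold which is holomorphic in the charts is holomorphic -/
theorem CpxAtlas.contMDiff_of_charts {X : Type*} [TopologicalSpace X] (A : CpxAtlas X)
    {E' H' N : Type*} [NormedAddCommGroup E'] [NormedSpace ℂ E'] [TopologicalSpace H']
    (J : ModelWithCorners ℂ E' H') [TopologicalSpace N] [ChartedSpace H' N] {f : X → N}
    (hf : ∀ i, ContMDiffOn 𝓘(ℂ, E2) J ω (f ∘ (A.e i).symm) (A.e i).target) :
    letI := A.charted
    ContMDiff 𝓘(ℂ, E2) J ω f := by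
  letI := A.charted
  intro x
  obtain ⟨i, hi⟩ := A.cover x
  have h2 : ContMDiffOn 𝓘(ℂ, E2) J ω ((f ∘ (A.e i).symm) ∘ (A.e i)) (A.e i).source :=
    (hf i).comp (A.e_contMDiffOn i) (fun y hy => (A.e i).map_source hy)
  have h3 : ContMDiffOn 𝓘(ℂ, E2) J ω f (A.e i).source := by
    refine h2.congr ?_
    intro y hy
    show f y = f ((A.e i).symm (A.e i y))
    rw [(A.e i).left_inv hy]
  exact (h3 x hi).contMDiffAt ((A.e i).open_source.mem_nhds hi)

/-- conversely, holomorphic maps are holomorphic in the charts -/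
theorem CpxAtlas.contMDiffOn_charts {X : Type*} [TopologicalSpace X] (A : CpxAtlas X)
    {E' H' N : Type*} [NormedAddCommGroup E'] [NormedSpace ℂ E'] [TopologicalSpace H']
    (J : ModelWithCorners ℂ E' H') [TopologicalSpace N] [ChartedSpace H' N] {f : X → N}
    (hf : letI := A.charted; ContMDiff 𝓘(ℂ, E2) J ω f) (i : A.I) :
    ContMDiffOn 𝓘(ℂ, E2) J ω (f ∘ (A.e i).symm) (A.e i).target := by
  letI := A.charted
  exact hf.comp_contMDiffOn (A.e_symm_contMDiffOn i)

variable {Y X0 : Type} [TopologicalSpace Y] [TopologicalSpace X0] {q : X0 → Y}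

/-- complex data on the models -/
structure CpxModels (D : Models q) where
  /-- domains -/
  Ω : D.I → Set E2
  Ω_open : ∀ i, IsOpen (Ω i)
  Ω_ne : ∀ i, (Ω i).Nonempty
  /-- identification -/
  φ : ∀ i, Ω i ≃ₜ D.M i
  reg : ∀ i (z : Ω i), (z : E2) 0 ≠ 0 → (z : E2) 1 ≠ 0 → φ i z ∈ D.M0 i
  /-- coordinates of the base -/
  G0 : X0 → E2
  diff : ∀ i (z : Ω i), φ i z ∈ D.M0 i → ∃ g' : E2 ≃L[ℂ] E2, ∃ g : E2 → E2,
    HasFDerivAt g (g' : E2 →L[ℂ] E2) (z : E2) ∧
      ∀ (w : Ω i) (hw : φ i w ∈ D.M0 i), G0 (D.h i ⟨φ i w, hw⟩) = g w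

namespace CpxModels

variable {D : Models q} (C : CpxModels D)

open Classical in
/-- coordinates of the base on the completion -/
noncomputable def G (x : D.Cmp) : E2 :=
  if h : x ∈ range D.incl then C.G0 h.choose else 0

theorem G_incl [T2Space Y] (x : X0) : C.G (D.incl x) = C.G0 x := by
  unfold G
  have h : D.incl x ∈ range D.incl := mem_range_self x
  rw [dif_pos h, D.incl_injective h.choose_spec]

variable [T2Space Y] [LocallyCompactSpace Y]

/-- **The charts of the completion.** -/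
noncomputable def atlas : CpxAtlas D.Cmp :=
  CpxAtlas.ofEmb C.Ω C.Ω_open C.Ω_ne (fun i z => D.hat i (C.φ i z))
    (fun i => (D.isOpenEmbedding_hat i).comp (C.φ i).isOpenEmbedding)
    (fun x => by
      obtain ⟨i, p, rfl⟩ := D.exists_hat x
      exact ⟨i, (C.φ i).symm p, by simp⟩)
    (range D.incl) D.isOpenEmbedding_incl.isOpen_range
    (fun i z h0 h1 => ⟨D.h i ⟨C.φ i z, C.reg i z h0 h1⟩, D.incl_h i _⟩)
    C.G
    (fun i z hz => by
      obtain ⟨x, hx⟩ := hz
      obtain ⟨hp, -⟩ := D.mem_M0_of_eq_incl hx.symm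
      obtain ⟨g', g, hg, hG⟩ := C.diff i z hp
      refine ⟨g', g, hg, ?_⟩
      intro w hw
      obtain ⟨y, hy⟩ := hw
      obtain ⟨hp', -⟩ := D.mem_M0_of_eq_incl hy.symm
      rw [← hG w hp']
      rw [show D.hat i (C.φ i w) = D.incl (D.h i ⟨C.φ i w, hp'⟩) from (D.incl_h i ⟨_, hp'⟩).symm]
      exact C.G_incl _)

@[simp] theorem atlas_Xr : C.atlas.Xr = range D.incl := rfl
@[simp] theorem atlas_G : C.atlas.G = C.G := rfl

theorem atlas_source (i : D.I) : (C.atlas.e i).source = range (D.hat i) := by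
  have h := mkChart_source (C.Ω_open i) (C.Ω_ne i)
    ((D.isOpenEmbedding_hat i).comp (C.φ i).isOpenEmbedding)
  exact h.trans ((C.φ i).surjective.range_comp (D.hat i))

theorem atlas_target (i : D.I) : (C.atlas.e i).target = C.Ω i :=
  mkChart_target (C.Ω_open i) (C.Ω_ne i) ((D.isOpenEmbedding_hat i).comp (C.φ i).isOpenEmbedding)

theorem atlas_symm (i : D.I) (z : C.Ω i) : (C.atlas.e i).symm z = D.hat i (C.φ i z) :=
  mkChart_symm (C.Ω_open i) (C.Ω_ne i) ((D.isOpenEmbedding_hat i).comp (C.φ i).isOpenEmbedding) z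

theorem atlas_hat (i : D.I) (p : D.M i) : C.atlas.e i (D.hat i p) = (C.φ i).symm p := by
  have h := mkChart_hat (C.Ω_open i) (C.Ω_ne i)
    ((D.isOpenEmbedding_hat i).comp (C.φ i).isOpenEmbedding) ((C.φ i).symm p)
  simp only [Function.comp, Homeomorph.apply_symm_apply] at h
  exact h

/-- **Extension of holomorphic maps**: `F i : Ω i → N` holomorphic in the models and compatible
with `f` on the regular part. -/
theorem contMDiff_desc {E' H' N : Type*} [NormedAddCommGroup E'] [NormedSpace ℂ E']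
    [TopologicalSpace H'] (J : ModelWithCorners ℂ E' H') [TopologicalSpace N] [T2Space N]
    [ChartedSpace H' N] (F : ∀ i, E2 → N)
    (hF : ∀ i, ContMDiffOn 𝓘(ℂ, E2) J ω (F i) (C.Ω i)) {f : X0 → N}
    (hf : ∀ i (z : C.Ω i) (hz : C.φ i z ∈ D.M0 i), f (D.h i ⟨C.φ i z, hz⟩) = F i z) :
    letI := C.atlas.charted
    ∃ fb : D.Cmp → N, ContMDiff 𝓘(ℂ, E2) J ω fb ∧ (∀ x, fb (D.incl x) = f x) ∧
      ∀ i (z : C.Ω i), fb (D.hat i (C.φ i z)) = F i z := by
  letI := C.atlas.charted
  have h1 : ∀ i, Continuous (fun p : D.M i => F i ((C.φ i).symm p)) := by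
    intro i
    have h2 : Continuous (fun z : C.Ω i => F i z) :=
      continuousOn_iff_continuous_restrict.1 (hF i).continuousOn
    exact h2.comp (C.φ i).symm.continuous
  have h2 : ∀ i (x : D.M0 i), f (D.h i x) = F i ((C.φ i).symm (x : D.M i)) := by
    intro i x
    have h3 := hf i ((C.φ i).symm (x : D.M i)) (by rw [Homeomorph.apply_symm_apply]; exact x.2)
    rw [← h3]
    congr 2
    exact Subtype.ext (by simp)
  have h3 : ∀ i (p : D.M i), D.desc (fun i p => F i ((C.φ i).symm p)) (D.hat i p) =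
      F i ((C.φ i).symm p) := D.desc_hat h1 h2
  refine ⟨D.desc (fun i p => F i ((C.φ i).symm p)), ?_, D.desc_incl h1 h2, ?_⟩
  · refine C.atlas.contMDiff_of_charts J ?_
    intro i
    change D.I at i
    have ht : (C.atlas.e i).target = C.Ω i := C.atlas_target i
    rw [ht]
    refine (hF i).congr ?_
    intro z hz
    show D.desc _ ((C.atlas.e i).symm z) = F i z
    rw [C.atlas_symm i ⟨z, hz⟩, h3]
    simp
  · intro i z
    rw [h3]
    simp

end CpxModels

section hom

variable {Y' X0' : Type} [TopologicalSpace Y'] [TopologicalSpace X0'] {q' : X0' → Y'}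
  [T2Space Y] [LocallyCompactSpace Y] [T2Space Y'] [LocallyCompactSpace Y']

/-- **A homomorphism of models gives a holomorphic covering of the completions.** -/
theorem isHolomorphicCovering_ext {D : Models q} {D' : Models q'} (C : CpxModels D)
    (C' : CpxModels D') {g : X0' → X0} (H : Models.Hom D' D g)
    (hcov : IsCoveringMap H.ext) (hsurj : Function.Surjective H.ext)
    (hM0 : ∀ i' (p : D'.M i'), H.φ i' p ∈ D.M0 (H.s i') → p ∈ D'.M0 i')
    (hG : ∀ x, C.G0 (g x) = C'.G0 x) :
    letI := C.atlas.charted; letI := C'.atlas.charted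
    IsHolomorphicCovering E2 H.ext := by
  refine C'.atlas.isHolomorphicCovering C.atlas hcov hsurj ?_ ?_
  · intro y
    constructor
    · rintro ⟨x, hx⟩
      obtain ⟨i', p', rfl⟩ := D'.exists_hat y
      rw [H.ext_hat] at hx
      obtain ⟨hp, -⟩ := D.mem_M0_of_eq_incl hx.symm
      exact ⟨D'.h i' ⟨p', hM0 i' p' hp⟩, D'.incl_h i' ⟨p', _⟩⟩
    · rintro ⟨x, rfl⟩
      exact ⟨g x, (H.ext_incl x).symm⟩
  · rintro y ⟨x, rfl⟩
    show C.G (H.ext (D'.incl x)) = C'.G (D'.incl x)
    rw [H.ext_incl, C.G_incl, C'.G_incl, hG]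

end hom

/-! ### open subsets of `ℂ × ℂ` -/

/-- `ℂ × ℂ` and `ℂ²` -/
def toE2 (x : ℂ × ℂ) : E2 := ![x.1, x.2]

/-- `ℂ²` and `ℂ × ℂ` -/
def ofE2 (z : E2) : ℂ × ℂ := (z 0, z 1)

@[simp] theorem toE2_ofE2 (z : E2) : toE2 (ofE2 z) = z := by
  ext i
  fin_cases i <;> rfl

@[simp] theorem ofE2_toE2 (x : ℂ × ℂ) : ofE2 (toE2 x) = x := rfl

@[fun_prop] theorem continuous_ofE2 : Continuous ofE2 := by
  unfold ofE2
  fun_prop

@[fun_prop] theorem continuous_toE2 : Continuous toE2 := by
  unfold toE2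
  refine continuous_pi fun i => ?_
  fin_cases i
  · exact continuous_fst
  · exact continuous_snd

/-- the open subset of `ℂ²` of an open subset of `ℂ × ℂ` -/
def homeoE2 (W : Set (ℂ × ℂ)) : (ofE2 ⁻¹' W) ≃ₜ W where
  toFun z := ⟨ofE2 z, z.2⟩
  invFun x := ⟨toE2 x, by
    show ofE2 (toE2 x) ∈ W
    rw [ofE2_toE2]
    exact x.2⟩
  left_inv z := Subtype.ext (by simp)
  right_inv x := Subtype.ext (by simp)
  continuous_toFun := Continuous.subtype_mk (continuous_ofE2.comp continuous_subtype_val) _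
  continuous_invFun := Continuous.subtype_mk (continuous_toE2.comp continuous_subtype_val) _

end Vale.Agent.P300.Cpx
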