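import Mathlib
import Vale.Agent.P300.H142.Kap

/-!
# The fifteen node charts are biholomorphic (helper749)

`kapInv ν` is the rational inverse of `kap ν : W → U`.
-/

set_option linter.all false

open Set

namespace Vale.Agent.P300.H749

open Vale.Agent.P300.H142

/-- the inverse of `kap` -/
noncomputable def kapInv : Fin 15 → ℂ × ℂ → ℂ × ℂ
  | 0, p => (p.2, (p.1 - 1) / (p.1 - p.2))
  | 1, p => (p.2, 1 / p.1)
  | 2, p => (p.1 * (1 - p.2) / (p.1 - p.2), 1 / p.1)
  | 3, p => (p.1 * (1 - p.2) / (p.1 - p.2), (p.1 - p.2) / p.1)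
  | 4, p => ((p.1 - 1) / (p.1 - p.2), (p.1 - p.2) / p.1)
  | 5, p => (p.2 / p.1, p.1)
  | 6, p => ((p.1 - p.2) / (p.1 * (1 - p.2)), p.1)
  | 7, p => ((p.1 - p.2) / (p.1 * (1 - p.2)), 1 - p.2)
  | 8, p => (p.1 / p.2, (1 - p.2) / (1 - p.1))
  | 9, p => (p.1 / p.2, p.2)
  | 10, p => ((p.1 - p.2) / (p.1 - 1), 1 / p.2)
  | 11, p => (p.2 / p.1, 1 / p.2)
  | 12, p => (p.1 / p.2, 1 / p.1)
  | 13, p => ((1 - p.1) * p.2 / (p.1 * (1 - p.2)), p.1 / p.2)
  | 14, p => (p.1, 1 / p.2)

theorem mem_W {u v : ℂ} (h1 : u ≠ 0) (h2 : v ≠ 0) (h3 : 1 - u ≠ 0) (h4 : 1 - v ≠ 0)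
    (h5 : 1 - u * v ≠ 0) : (u, v) ∈ W :=
  ⟨h1, h2, (sub_ne_zero.1 h3).symm, (sub_ne_zero.1 h4).symm, (sub_ne_zero.1 h5).symm⟩

theorem mem_U {x l : ℂ} (h1 : x ≠ 0) (h2 : x - 1 ≠ 0) (h3 : l ≠ 0) (h4 : 1 - l ≠ 0)
    (h5 : x - l ≠ 0) : (x, l) ∈ U :=
  ⟨h1, sub_ne_zero.1 h2, h3, (sub_ne_zero.1 h4).symm, sub_ne_zero.1 h5⟩

theorem kapInv_kap (ν : Fin 15) {w : ℂ × ℂ} (hw : w ∈ W) : kapInv ν (kap ν w) = w := by
  obtain ⟨u, v⟩ := w
  obtain ⟨h1, h2, h3, h4, h5⟩ := hw
  simp only at h1 h2 h3 h4 h5
  have a1 : 1 - u ≠ 0 := sub_ne_zero.2 (Ne.symm h3)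
  have a2 : 1 - v ≠ 0 := sub_ne_zero.2 (Ne.symm h4)
  have a3 : 1 - u * v ≠ 0 := sub_ne_zero.2 (Ne.symm h5)
  have a4 : 1 - v * u ≠ 0 := by rwa [mul_comm v u]
  fin_cases ν
  · show (u, ((1 - u * v) / (1 - v) - 1) / ((1 - u * v) / (1 - v) - u)) = (u, v)
    have e1 : (1 - u * v) / (1 - v) - 1 = v * (1 - u) / (1 - v) := by field_simp; ring
    have e2 : (1 - u * v) / (1 - v) - u = (1 - u) / (1 - v) := by field_simp; ring
    rw [e1, e2]
    congr 1
    field_simp
  · show (u, 1 / (1 / v)) = (u, v)
    congr 1
    field_simp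
  · show (1 / v * (1 - (1 - u) / (1 - u * v)) / (1 / v - (1 - u) / (1 - u * v)), 1 / (1 / v)) =
      (u, v)
    have e1 : 1 - (1 - u) / (1 - u * v) = u * (1 - v) / (1 - u * v) := by field_simp; ring
    have e2 : 1 / v - (1 - u) / (1 - u * v) = (1 - v) / (v * (1 - u * v)) := by field_simp; ring
    rw [e1, e2]
    congr 1 <;> field_simp
  · show ((1 - u * v) / (1 - v) * (1 - (1 - u * v)) / ((1 - u * v) / (1 - v) - (1 - u * v)),
      ((1 - u * v) / (1 - v) - (1 - u * v)) / ((1 - u * v) / (1 - v))) = (u, v)
    have e2 : (1 - u * v) / (1 - v) - (1 - u * v) = v * (1 - u * v) / (1 - v) := by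
      field_simp; ring
    rw [e2]
    congr 1
    · field_simp; ring
    · field_simp
  · show ((1 / (1 - u * v) - 1) / (1 / (1 - u * v) - (1 - v) / (1 - u * v)),
      (1 / (1 - u * v) - (1 - v) / (1 - u * v)) / (1 / (1 - u * v))) = (u, v)
    have e1 : 1 / (1 - u * v) - 1 = u * v / (1 - u * v) := by field_simp; ring
    have e2 : 1 / (1 - u * v) - (1 - v) / (1 - u * v) = v / (1 - u * v) := by field_simp; ring
    rw [e1, e2]
    congr 1 <;> field_simp
  · show (u * v / v, v) = (u, v)
    congr 1
    field_simp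
  · show ((v - v * (1 - u) / (1 - u * v)) / (v * (1 - v * (1 - u) / (1 - u * v))), v) = (u, v)
    have e1 : v - v * (1 - u) / (1 - u * v) = u * v * (1 - v) / (1 - u * v) := by field_simp; ring
    have e2 : 1 - v * (1 - u) / (1 - u * v) = (1 - v) / (1 - u * v) := by field_simp; ring
    rw [e1, e2]
    congr 1
    field_simp
  · show (((1 - v) / (1 - u * v) - (1 - v)) / ((1 - v) / (1 - u * v) * (1 - (1 - v))),
      1 - (1 - v)) = (u, v)
    have e1 : (1 - v) / (1 - u * v) - (1 - v) = u * v * (1 - v) / (1 - u * v) := by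
      field_simp; ring
    have e2 : 1 - (1 - v) = v := by ring
    rw [e1, e2]
    congr 1
    field_simp
  · show (u * (1 - v) / (1 - u * v) / ((1 - v) / (1 - u * v)),
      (1 - (1 - v) / (1 - u * v)) / (1 - u * (1 - v) / (1 - u * v))) = (u, v)
    have e1 : 1 - (1 - v) / (1 - u * v) = v * (1 - u) / (1 - u * v) := by field_simp; ring
    have e2 : 1 - u * (1 - v) / (1 - u * v) = (1 - u) / (1 - u * v) := by field_simp; ring
    rw [e1, e2]
    congr 1 <;> field_simp
  · show (u * v / v, v) = (u, v)
    congr 1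
    field_simp
  · show (((1 - u * v) / (v * (1 - u)) - 1 / v) / ((1 - u * v) / (v * (1 - u)) - 1),
      1 / (1 / v)) = (u, v)
    have e1 : (1 - u * v) / (v * (1 - u)) - 1 / v = u * (1 - v) / (v * (1 - u)) := by
      field_simp; ring
    have e2 : (1 - u * v) / (v * (1 - u)) - 1 = (1 - v) / (v * (1 - u)) := by field_simp; ring
    rw [e1, e2]
    congr 1 <;> field_simp
  · show (1 / v / (1 / (u * v)), 1 / (1 / v)) = (u, v)
    congr 1 <;> field_simp
  · show (1 / v / (1 / (u * v)), 1 / (1 / v)) = (u, v)
    congr 1 <;> field_simp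
  · show ((1 - (1 - u * v) / (1 - u)) * ((1 - u * v) / (v * (1 - u))) /
      ((1 - u * v) / (1 - u) * (1 - (1 - u * v) / (v * (1 - u)))),
      (1 - u * v) / (1 - u) / ((1 - u * v) / (v * (1 - u)))) = (u, v)
    have e1 : 1 - (1 - u * v) / (1 - u) = -(u * (1 - v)) / (1 - u) := by field_simp; ring
    have e2 : 1 - (1 - u * v) / (v * (1 - u)) = -(1 - v) / (v * (1 - u)) := by field_simp; ring
    rw [e1, e2]
    congr 1 <;> field_simp
  · show (u, 1 / (1 / v)) = (u, v)
    congr 1
    field_simp

theorem kap_mem (ν : Fin 15) {w : ℂ × ℂ} (hw : w ∈ W) : kap ν w ∈ U := by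
  obtain ⟨u, v⟩ := w
  obtain ⟨h1, h2, h3, h4, h5⟩ := hw
  simp only at h1 h2 h3 h4 h5
  have a1 : 1 - u ≠ 0 := sub_ne_zero.2 (Ne.symm h3)
  have a2 : 1 - v ≠ 0 := sub_ne_zero.2 (Ne.symm h4)
  have a3 : 1 - u * v ≠ 0 := sub_ne_zero.2 (Ne.symm h5)
  have a4 : 1 - v * u ≠ 0 := by rwa [mul_comm v u]
  fin_cases ν
  · show ((1 - u * v) / (1 - v), u) ∈ U
    have e1 : (1 - u * v) / (1 - v) - 1 = v * (1 - u) / (1 - v) := by first | ring1 | (field_simp; done) | (field_simp; ring1)
    have e2 : 1 - u = (1 - u) := by first | ring1 | (field_simp; done) | (field_simp; ring1)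
    have e3 : (1 - u * v) / (1 - v) - u = (1 - u) / (1 - v) := by first | ring1 | (field_simp; done) | (field_simp; ring1)
    exact mem_U (by (repeat' first | assumption | exact one_ne_zero | apply div_ne_zero | apply mul_ne_zero | apply neg_ne_zero.2)) (by rw [e1]; (repeat' first | assumption | exact one_ne_zero | apply div_ne_zero | apply mul_ne_zero | apply neg_ne_zero.2)) (by (repeat' first | assumption | exact one_ne_zero | apply div_ne_zero | apply mul_ne_zero | apply neg_ne_zero.2)) (by rw [e2]; (repeat' first | assumption | exact one_ne_zero | apply div_ne_zero | apply mul_ne_zero | apply neg_ne_zero.2)) (by rw [e3]; (repeat' first | assumption | exact one_ne_zero | apply div_ne_zero | apply mul_ne_zero | apply neg_ne_zero.2))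
  · show (1 / v, u) ∈ U
    have e1 : 1 / v - 1 = (1 - v) / v := by first | ring1 | (field_simp; done) | (field_simp; ring1)
    have e2 : 1 - u = (1 - u) := by first | ring1 | (field_simp; done) | (field_simp; ring1)
    have e3 : 1 / v - u = (1 - u * v) / v := by first | ring1 | (field_simp; done) | (field_simp; ring1)
    exact mem_U (by (repeat' first | assumption | exact one_ne_zero | apply div_ne_zero | apply mul_ne_zero | apply neg_ne_zero.2)) (by rw [e1]; (repeat' first | assumption | exact one_ne_zero | apply div_ne_zero | apply mul_ne_zero | apply neg_ne_zero.2)) (by (repeat' first | assumption | exact one_ne_zero | apply div_ne_zero | apply mul_ne_zero | apply neg_ne_zero.2)) (by rw [e2]; (repeat' first | assumption | exact one_ne_zero | apply div_ne_zero | apply mul_ne_zero | apply neg_ne_zero.2)) (by rw [e3]; (repeat' first | assumption | exact one_ne_zero | apply div_ne_zero | apply mul_ne_zero | apply neg_ne_zero.2))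
  · show (1 / v, (1 - u) / (1 - u * v)) ∈ U
    have e1 : 1 / v - 1 = (1 - v) / v := by first | ring1 | (field_simp; done) | (field_simp; ring1)
    have e2 : 1 - (1 - u) / (1 - u * v) = u * (1 - v) / (1 - u * v) := by first | ring1 | (field_simp; done) | (field_simp; ring1)
    have e3 : 1 / v - (1 - u) / (1 - u * v) = (1 - v) / (v * (1 - u * v)) := by first | ring1 | (field_simp; done) | (field_simp; ring1)
    exact mem_U (by (repeat' first | assumption | exact one_ne_zero | apply div_ne_zero | apply mul_ne_zero | apply neg_ne_zero.2)) (by rw [e1]; (repeat' first | assumption | exact one_ne_zero | apply div_ne_zero | apply mul_ne_zero | apply neg_ne_zero.2)) (by (repeat' first | assumption | exact one_ne_zero | apply div_ne_zero | apply mul_ne_zero | apply neg_ne_zero.2)) (by rw [e2]; (repeat' first | assumption | exact one_ne_zero | apply div_ne_zero | apply mul_ne_zero | apply neg_ne_zero.2)) (by rw [e3]; (repeat' first | assumption | exact one_ne_zero | apply div_ne_zero | apply mul_ne_zero | apply neg_ne_zero.2))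
  · show ((1 - u * v) / (1 - v), (1 - u * v)) ∈ U
    have e1 : (1 - u * v) / (1 - v) - 1 = v * (1 - u) / (1 - v) := by first | ring1 | (field_simp; done) | (field_simp; ring1)
    have e2 : 1 - (1 - u * v) = u * v := by first | ring1 | (field_simp; done) | (field_simp; ring1)
    have e3 : (1 - u * v) / (1 - v) - (1 - u * v) = (1 - u * v) * v / (1 - v) := by first | ring1 | (field_simp; done) | (field_simp; ring1)
    exact mem_U (by (repeat' first | assumption | exact one_ne_zero | apply div_ne_zero | apply mul_ne_zero | apply neg_ne_zero.2)) (by rw [e1]; (repeat' first | assumption | exact one_ne_zero | apply div_ne_zero | apply mul_ne_zero | apply neg_ne_zero.2)) (by (repeat' first | assumption | exact one_ne_zero | apply div_ne_zero | apply mul_ne_zero | apply neg_ne_zero.2)) (by rw [e2]; (repeat' first | assumption | exact one_ne_zero | apply div_ne_zero | apply mul_ne_zero | apply neg_ne_zero.2)) (by rw [e3]; (repeat' first | assumption | exact one_ne_zero | apply div_ne_zero | apply mul_ne_zero | apply neg_ne_zero.2))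
  · show (1 / (1 - u * v), (1 - v) / (1 - u * v)) ∈ U
    have e1 : 1 / (1 - u * v) - 1 = u * v / (1 - u * v) := by first | ring1 | (field_simp; done) | (field_simp; ring1)
    have e2 : 1 - (1 - v) / (1 - u * v) = v * (1 - u) / (1 - u * v) := by first | ring1 | (field_simp; done) | (field_simp; ring1)
    have e3 : 1 / (1 - u * v) - (1 - v) / (1 - u * v) = v / (1 - u * v) := by first | ring1 | (field_simp; done) | (field_simp; ring1)
    exact mem_U (by (repeat' first | assumption | exact one_ne_zero | apply div_ne_zero | apply mul_ne_zero | apply neg_ne_zero.2)) (by rw [e1]; (repeat' first | assumption | exact one_ne_zero | apply div_ne_zero | apply mul_ne_zero | apply neg_ne_zero.2)) (by (repeat' first | assumption | exact one_ne_zero | apply div_ne_zero | apply mul_ne_zero | apply neg_ne_zero.2)) (by rw [e2]; (repeat' first | assumption | exact one_ne_zero | apply div_ne_zero | apply mul_ne_zero | apply neg_ne_zero.2)) (by rw [e3]; (repeat' first | assumption | exact one_ne_zero | apply div_ne_zero | apply mul_ne_zero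 | apply neg_ne_zero.2))
  · show (v, u * v) ∈ U
    have e1 : v - 1 = -(1 - v) := by first | ring1 | (field_simp; done) | (field_simp; ring1)
    have e2 : 1 - u * v = (1 - u * v) := by first | ring1 | (field_simp; done) | (field_simp; ring1)
    have e3 : v - u * v = v * (1 - u) := by first | ring1 | (field_simp; done) | (field_simp; ring1)
    exact mem_U (by (repeat' first | assumption | exact one_ne_zero | apply div_ne_zero | apply mul_ne_zero | apply neg_ne_zero.2)) (by rw [e1]; (repeat' first | assumption | exact one_ne_zero | apply div_ne_zero | apply mul_ne_zero | apply neg_ne_zero.2)) (by (repeat' first | assumption | exact one_ne_zero | apply div_ne_zero | apply mul_ne_zero | apply neg_ne_zero.2)) (by rw [e2]; (repeat' first | assumption | exact one_ne_zero | apply div_ne_zero | apply mul_ne_zero | apply neg_ne_zero.2)) (by rw [e3]; (repeat' first | assumption | exact one_ne_zero | apply div_ne_zero | apply mul_ne_zero | apply neg_ne_zero.2))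
  · show (v, v * (1 - u) / (1 - u * v)) ∈ U
    have e1 : v - 1 = -(1 - v) := by first | ring1 | (field_simp; done) | (field_simp; ring1)
    have e2 : 1 - v * (1 - u) / (1 - u * v) = (1 - v) / (1 - u * v) := by first | ring1 | (field_simp; done) | (field_simp; ring1)
    have e3 : v - v * (1 - u) / (1 - u * v) = v * u * (1 - v) / (1 - u * v) := by first | ring1 | (field_simp; done) | (field_simp; ring1)
    exact mem_U (by (repeat' first | assumption | exact one_ne_zero | apply div_ne_zero | apply mul_ne_zero | apply neg_ne_zero.2)) (by rw [e1]; (repeat' first | assumption | exact one_ne_zero | apply div_ne_zero | apply mul_ne_zero | apply neg_ne_zero.2)) (by (repeat' first | assumption | exact one_ne_zero | apply div_ne_zero | apply mul_ne_zero | apply neg_ne_zero.2)) (by rw [e2]; (repeat' first | assumption | exact one_ne_zero | apply div_ne_zero | apply mul_ne_zero | apply neg_ne_zero.2)) (by rw [e3]; (repeat' first | assumption | exact one_ne_zero | apply div_ne_zero | apply mul_ne_zero | apply neg_ne_zero.2))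
  · show ((1 - v) / (1 - u * v), (1 - v)) ∈ U
    have e1 : (1 - v) / (1 - u * v) - 1 = -(v * (1 - u)) / (1 - u * v) := by first | ring1 | (field_simp; done) | (field_simp; ring1)
    have e2 : 1 - (1 - v) = v := by first | ring1 | (field_simp; done) | (field_simp; ring1)
    have e3 : (1 - v) / (1 - u * v) - (1 - v) = (1 - v) * u * v / (1 - u * v) := by first | ring1 | (field_simp; done) | (field_simp; ring1)
    exact mem_U (by (repeat' first | assumption | exact one_ne_zero | apply div_ne_zero | apply mul_ne_zero | apply neg_ne_zero.2)) (by rw [e1]; (repeat' first | assumption | exact one_ne_zero | apply div_ne_zero | apply mul_ne_zero | apply neg_ne_zero.2)) (by (repeat' first | assumption | exact one_ne_zero | apply div_ne_zero | apply mul_ne_zero | apply neg_ne_zero.2)) (by rw [e2]; (repeat' first | assumption | exact one_ne_zero | apply div_ne_zero | apply mul_ne_zero | apply neg_ne_zero.2)) (by rw [e3]; (repeat' first | assumption | exact one_ne_zero | apply div_ne_zero | apply mul_ne_zero | apply neg_ne_zero.2))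
  · show (u * (1 - v) / (1 - u * v), (1 - v) / (1 - u * v)) ∈ U
    have e1 : u * (1 - v) / (1 - u * v) - 1 = -(1 - u) / (1 - u * v) := by first | ring1 | (field_simp; done) | (field_simp; ring1)
    have e2 : 1 - (1 - v) / (1 - u * v) = v * (1 - u) / (1 - u * v) := by first | ring1 | (field_simp; done) | (field_simp; ring1)
    have e3 : u * (1 - v) / (1 - u * v) - (1 - v) / (1 - u * v) = -((1 - u) * (1 - v)) / (1 - u * v) := by first | ring1 | (field_simp; done) | (field_simp; ring1)
    exact mem_U (by (repeat' first | assumption | exact one_ne_zero | apply div_ne_zero | apply mul_ne_zero | apply neg_ne_zero.2)) (by rw [e1]; (repeat' first | assumption | exact one_ne_zero | apply div_ne_zero | apply mul_ne_zero | apply neg_ne_zero.2)) (by (repeat' first | assumption | exact one_ne_zero | apply div_ne_zero | apply mul_ne_zero | apply neg_ne_zero.2)) (by rw [e2]; (repeat' first | assumption | exact one_ne_zero | apply div_ne_zero | apply mul_ne_zero | apply neg_ne_zero.2)) (by rw [e3]; (repeat' first | assumption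 | exact one_ne_zero | apply div_ne_zero | apply mul_ne_zero | apply neg_ne_zero.2))
  · show (u * v, v) ∈ U
    have e1 : u * v - 1 = -(1 - u * v) := by first | ring1 | (field_simp; done) | (field_simp; ring1)
    have e2 : 1 - v = (1 - v) := by first | ring1 | (field_simp; done) | (field_simp; ring1)
    have e3 : u * v - v = -(v * (1 - u)) := by first | ring1 | (field_simp; done) | (field_simp; ring1)
    exact mem_U (by (repeat' first | assumption | exact one_ne_zero | apply div_ne_zero | apply mul_ne_zero | apply neg_ne_zero.2)) (by rw [e1]; (repeat' first | assumption | exact one_ne_zero | apply div_ne_zero | apply mul_ne_zero | apply neg_ne_zero.2)) (by (repeat' first | assumption | exact one_ne_zero | apply div_ne_zero | apply mul_ne_zero | apply neg_ne_zero.2)) (by rw [e2]; (repeat' first | assumption | exact one_ne_zero | apply div_ne_zero | apply mul_ne_zero | apply neg_ne_zero.2)) (by rw [e3]; (repeat' first | assumption | exact one_ne_zero | apply div_ne_zero | apply mul_ne_zero | apply neg_ne_zero.2))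
  · show ((1 - u * v) / (v * (1 - u)), 1 / v) ∈ U
    have e1 : (1 - u * v) / (v * (1 - u)) - 1 = (1 - v) / (v * (1 - u)) := by first | ring1 | (field_simp; done) | (field_simp; ring1)
    have e2 : 1 - 1 / v = -(1 - v) / v := by first | ring1 | (field_simp; done) | (field_simp; ring1)
    have e3 : (1 - u * v) / (v * (1 - u)) - 1 / v = u * (1 - v) / (v * (1 - u)) := by first | ring1 | (field_simp; done) | (field_simp; ring1)
    exact mem_U (by (repeat' first | assumption | exact one_ne_zero | apply div_ne_zero | apply mul_ne_zero | apply neg_ne_zero.2)) (by rw [e1]; (repeat' first | assumption | exact one_ne_zero | apply div_ne_zero | apply mul_ne_zero | apply neg_ne_zero.2)) (by (repeat' first | assumption | exact one_ne_zero | apply div_ne_zero | apply mul_ne_zero | apply neg_ne_zero.2)) (by rw [e2]; (repeat' first | assumption | exact one_ne_zero | apply div_ne_zero | apply mul_ne_zero | apply neg_ne_zero.2)) (by rw [e3]; (repeat' first | assumption | exact one_ne_zero | apply div_ne_zero | apply mul_ne_zero |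 apply neg_ne_zero.2))
  · show (1 / (u * v), 1 / v) ∈ U
    have e1 : 1 / (u * v) - 1 = (1 - u * v) / (u * v) := by first | ring1 | (field_simp; done) | (field_simp; ring1)
    have e2 : 1 - 1 / v = -(1 - v) / v := by first | ring1 | (field_simp; done) | (field_simp; ring1)
    have e3 : 1 / (u * v) - 1 / v = (1 - u) / (u * v) := by first | ring1 | (field_simp; done) | (field_simp; ring1)
    exact mem_U (by (repeat' first | assumption | exact one_ne_zero | apply div_ne_zero | apply mul_ne_zero | apply neg_ne_zero.2)) (by rw [e1]; (repeat' first | assumption | exact one_ne_zero | apply div_ne_zero | apply mul_ne_zero | apply neg_ne_zero.2)) (by (repeat' first | assumption | exact one_ne_zero | apply div_ne_zero | apply mul_ne_zero | apply neg_ne_zero.2)) (by rw [e2]; (repeat' first | assumption | exact one_ne_zero | apply div_ne_zero | apply mul_ne_zero | apply neg_ne_zero.2)) (by rw [e3]; (repeat' first | assumption | exact one_ne_zero | apply div_ne_zero | apply mul_ne_zero | apply neg_ne_zero.2))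
  · show (1 / v, 1 / (u * v)) ∈ U
    have e1 : 1 / v - 1 = (1 - v) / v := by first | ring1 | (field_simp; done) | (field_simp; ring1)
    have e2 : 1 - 1 / (u * v) = -(1 - u * v) / (u * v) := by first | ring1 | (field_simp; done) | (field_simp; ring1)
    have e3 : 1 / v - 1 / (u * v) = -(1 - u) / (u * v) := by first | ring1 | (field_simp; done) | (field_simp; ring1)
    exact mem_U (by (repeat' first | assumption | exact one_ne_zero | apply div_ne_zero | apply mul_ne_zero | apply neg_ne_zero.2)) (by rw [e1]; (repeat' first | assumption | exact one_ne_zero | apply div_ne_zero | apply mul_ne_zero | apply neg_ne_zero.2)) (by (repeat' first | assumption | exact one_ne_zero | apply div_ne_zero | apply mul_ne_zero | apply neg_ne_zero.2)) (by rw [e2]; (repeat' first | assumption | exact one_ne_zero | apply div_ne_zero | apply mul_ne_zero | apply neg_ne_zero.2)) (by rw [e3]; (repeat' first | assumption | exact one_ne_zero | apply div_ne_zero | apply mul_ne_zero | apply neg_ne_zero.2))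
  · show ((1 - u * v) / (1 - u), (1 - u * v) / (v * (1 - u))) ∈ U
    have e1 : (1 - u * v) / (1 - u) - 1 = u * (1 - v) / (1 - u) := by first | ring1 | (field_simp; done) | (field_simp; ring1)
    have e2 : 1 - (1 - u * v) / (v * (1 - u)) = -(1 - v) / (v * (1 - u)) := by first | ring1 | (field_simp; done) | (field_simp; ring1)
    have e3 : (1 - u * v) / (1 - u) - (1 - u * v) / (v * (1 - u)) = -((1 - u * v) * (1 - v)) / (v * (1 - u)) := by first | ring1 | (field_simp; done) | (field_simp; ring1)
    exact mem_U (by (repeat' first | assumption | exact one_ne_zero | apply div_ne_zero | apply mul_ne_zero | apply neg_ne_zero.2)) (by rw [e1]; (repeat' first | assumption | exact one_ne_zero | apply div_ne_zero | apply mul_ne_zero | apply neg_ne_zero.2)) (by (repeat' first | assumption | exact one_ne_zero | apply div_ne_zero | apply mul_ne_zero | apply neg_ne_zero.2)) (by rw [e2]; (repeat' first | assumption | exact one_ne_zero | apply div_ne_zero | apply mul_ne_zero | apply neg_ne_zero.2)) (by rw [e3]; (repeat' first | assumption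 | exact one_ne_zero | apply div_ne_zero | apply mul_ne_zero | apply neg_ne_zero.2))
  · show (u, 1 / v) ∈ U
    have e1 : u - 1 = -(1 - u) := by first | ring1 | (field_simp; done) | (field_simp; ring1)
    have e2 : 1 - 1 / v = -(1 - v) / v := by first | ring1 | (field_simp; done) | (field_simp; ring1)
    have e3 : u - 1 / v = -(1 - u * v) / v := by first | ring1 | (field_simp; done) | (field_simp; ring1)
    exact mem_U (by (repeat' first | assumption | exact one_ne_zero | apply div_ne_zero | apply mul_ne_zero | apply neg_ne_zero.2)) (by rw [e1]; (repeat' first | assumption | exact one_ne_zero | apply div_ne_zero | apply mul_ne_zero | apply neg_ne_zero.2)) (by (repeat' first | assumption | exact one_ne_zero | apply div_ne_zero | apply mul_ne_zero | apply neg_ne_zero.2)) (by rw [e2]; (repeat' first | assumption | exact one_ne_zero | apply div_ne_zero | apply mul_ne_zero | apply neg_ne_zero.2)) (by rw [e3]; (repeat' first | assumption | exact one_ne_zero | apply div_ne_zero | apply mul_ne_zero | apply neg_ne_zero.2))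

theorem isOpen_W : IsOpen W := by
  have h : W = {w : ℂ × ℂ | w.1 ≠ 0} ∩ {w | w.2 ≠ 0} ∩ {w | w.1 ≠ 1} ∩ {w | w.2 ≠ 1} ∩
      {w | w.1 * w.2 ≠ 1} := by
    ext w
    simp only [W, mem_inter_iff, mem_setOf_eq]
    tauto
  rw [h]
  exact ((((isOpen_ne_fun continuous_fst continuous_const).inter
    (isOpen_ne_fun continuous_snd continuous_const)).inter
    (isOpen_ne_fun continuous_fst continuous_const)).inter
    (isOpen_ne_fun continuous_snd continuous_const)).inter
    (isOpen_ne_fun (continuous_fst.mul continuous_snd) continuous_const)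

theorem differentiableAt_kap (ν : Fin 15) {w : ℂ × ℂ} (hw : w ∈ W) :
    DifferentiableAt ℂ (kap ν) w := by
  obtain ⟨h1, h2, h3, h4, h5⟩ := hw
  have a1 : 1 - w.1 ≠ 0 := sub_ne_zero.2 (Ne.symm h3)
  have a2 : 1 - w.2 ≠ 0 := sub_ne_zero.2 (Ne.symm h4)
  have a3 : 1 - w.1 * w.2 ≠ 0 := sub_ne_zero.2 (Ne.symm h5)
  have b1 : w.1 * w.2 ≠ 0 := mul_ne_zero h1 h2
  have b2 : w.2 * (1 - w.1) ≠ 0 := mul_ne_zero h2 a1
  have d1 : DifferentiableAt ℂ (fun w : ℂ × ℂ => w.1) w := differentiableAt_fst
  have d2 : DifferentiableAt ℂ (fun w : ℂ × ℂ => w.2) w := differentiableAt_snd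
  fin_cases ν
  · show DifferentiableAt ℂ (fun w : ℂ × ℂ => ((1 - w.1 * w.2) / (1 - w.2), w.1)) w
    fun_prop (disch := assumption)
  · show DifferentiableAt ℂ (fun w : ℂ × ℂ => (1 / w.2, w.1)) w
    fun_prop (disch := assumption)
  · show DifferentiableAt ℂ (fun w : ℂ × ℂ => (1 / w.2, (1 - w.1) / (1 - w.1 * w.2))) w
    fun_prop (disch := assumption)
  · show DifferentiableAt ℂ (fun w : ℂ × ℂ => ((1 - w.1 * w.2) / (1 - w.2), 1 - w.1 * w.2)) w
    fun_prop (disch := assumption)
  · show DifferentiableAt ℂ (fun w : ℂ × ℂ => (1 / (1 - w.1 * w.2), (1 - w.2) / (1 - w.1 * w.2))) w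
    fun_prop (disch := assumption)
  · show DifferentiableAt ℂ (fun w : ℂ × ℂ => (w.2, w.1 * w.2)) w
    fun_prop (disch := assumption)
  · show DifferentiableAt ℂ (fun w : ℂ × ℂ => (w.2, w.2 * (1 - w.1) / (1 - w.1 * w.2))) w
    fun_prop (disch := assumption)
  · show DifferentiableAt ℂ (fun w : ℂ × ℂ => ((1 - w.2) / (1 - w.1 * w.2), 1 - w.2)) w
    fun_prop (disch := assumption)
  · show DifferentiableAt ℂ (fun w : ℂ × ℂ => (w.1 * (1 - w.2) / (1 - w.1 * w.2),
      (1 - w.2) / (1 - w.1 * w.2))) w
    fun_prop (disch := assumption)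
  · show DifferentiableAt ℂ (fun w : ℂ × ℂ => (w.1 * w.2, w.2)) w
    fun_prop (disch := assumption)
  · show DifferentiableAt ℂ (fun w : ℂ × ℂ => ((1 - w.1 * w.2) / (w.2 * (1 - w.1)), 1 / w.2)) w
    fun_prop (disch := assumption)
  · show DifferentiableAt ℂ (fun w : ℂ × ℂ => (1 / (w.1 * w.2), 1 / w.2)) w
    fun_prop (disch := assumption)
  · show DifferentiableAt ℂ (fun w : ℂ × ℂ => (1 / w.2, 1 / (w.1 * w.2))) w
    fun_prop (disch := assumption)
  · show DifferentiableAt ℂ (fun w : ℂ × ℂ => ((1 - w.1 * w.2) / (1 - w.1),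
      (1 - w.1 * w.2) / (w.2 * (1 - w.1)))) w
    fun_prop (disch := assumption)
  · show DifferentiableAt ℂ (fun w : ℂ × ℂ => (w.1, 1 / w.2)) w
    fun_prop (disch := assumption)

theorem differentiableAt_kapInv (ν : Fin 15) {w : ℂ × ℂ} (hw : w ∈ U) :
    DifferentiableAt ℂ (kapInv ν) w := by
  obtain ⟨h1, h2, h3, h4, h5⟩ := hw
  have a1 : 1 - w.1 ≠ 0 := sub_ne_zero.2 (Ne.symm h2)
  have a1' : w.1 - 1 ≠ 0 := sub_ne_zero.2 h2
  have a2 : 1 - w.2 ≠ 0 := sub_ne_zero.2 (Ne.symm h4)
  have a3 : w.1 - w.2 ≠ 0 := sub_ne_zero.2 h5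
  have b2 : w.1 * (1 - w.2) ≠ 0 := mul_ne_zero h1 a2
  fin_cases ν
  · show DifferentiableAt ℂ (fun p : ℂ × ℂ => (p.2, (p.1 - 1) / (p.1 - p.2))) w
    fun_prop (disch := assumption)
  · show DifferentiableAt ℂ (fun p : ℂ × ℂ => (p.2, 1 / p.1)) w
    fun_prop (disch := assumption)
  · show DifferentiableAt ℂ (fun p : ℂ × ℂ => (p.1 * (1 - p.2) / (p.1 - p.2), 1 / p.1)) w
    fun_prop (disch := assumption)
  · show DifferentiableAt ℂ (fun p : ℂ × ℂ => (p.1 * (1 - p.2) / (p.1 - p.2),
      (p.1 - p.2) / p.1)) w
    fun_prop (disch := assumption)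
  · show DifferentiableAt ℂ (fun p : ℂ × ℂ => ((p.1 - 1) / (p.1 - p.2), (p.1 - p.2) / p.1)) w
    fun_prop (disch := assumption)
  · show DifferentiableAt ℂ (fun p : ℂ × ℂ => (p.2 / p.1, p.1)) w
    fun_prop (disch := assumption)
  · show DifferentiableAt ℂ (fun p : ℂ × ℂ => ((p.1 - p.2) / (p.1 * (1 - p.2)), p.1)) w
    fun_prop (disch := assumption)
  · show DifferentiableAt ℂ (fun p : ℂ × ℂ => ((p.1 - p.2) / (p.1 * (1 - p.2)), 1 - p.2)) w
    fun_prop (disch := assumption)
  · show DifferentiableAt ℂ (fun p : ℂ × ℂ => (p.1 / p.2, (1 - p.2) / (1 - p.1))) w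
    fun_prop (disch := assumption)
  · show DifferentiableAt ℂ (fun p : ℂ × ℂ => (p.1 / p.2, p.2)) w
    fun_prop (disch := assumption)
  · show DifferentiableAt ℂ (fun p : ℂ × ℂ => ((p.1 - p.2) / (p.1 - 1), 1 / p.2)) w
    fun_prop (disch := assumption)
  · show DifferentiableAt ℂ (fun p : ℂ × ℂ => (p.2 / p.1, 1 / p.2)) w
    fun_prop (disch := assumption)
  · show DifferentiableAt ℂ (fun p : ℂ × ℂ => (p.1 / p.2, 1 / p.1)) w
    fun_prop (disch := assumption)
  · show DifferentiableAt ℂ (fun p : ℂ × ℂ => ((1 - p.1) * p.2 / (p.1 * (1 - p.2)),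
      p.1 / p.2)) w
    fun_prop (disch := assumption)
  · show DifferentiableAt ℂ (fun p : ℂ × ℂ => (p.1, 1 / p.2)) w
    fun_prop (disch := assumption)

/-- a differentiable map with a differentiable left inverse has a bijective derivative -/
theorem exists_equiv_of_leftInv {E : Type*} [NormedAddCommGroup E] [NormedSpace ℂ E]
    [FiniteDimensional ℂ E] {f g : E → E} {w : E} (hf : DifferentiableAt ℂ f w)
    (hg : DifferentiableAt ℂ g (f w)) (h : ∀ᶠ z in nhds w, g (f z) = z) :
    ∃ f' : E ≃L[ℂ] E, HasFDerivAt f (f' : E →L[ℂ] E) w := by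
  have h1 : HasFDerivAt (g ∘ f) ((fderiv ℂ g (f w)).comp (fderiv ℂ f w)) w :=
    hg.hasFDerivAt.comp w hf.hasFDerivAt
  have h2 : HasFDerivAt (g ∘ f) (ContinuousLinearMap.id ℂ E) w :=
    (hasFDerivAt_id w).congr_of_eventuallyEq h
  have h3 := h1.unique h2
  have hinj : Function.Injective (fderiv ℂ f w : E →ₗ[ℂ] E) := by
    intro a b hab
    have h4 : (fderiv ℂ g (f w)) ((fderiv ℂ f w) a) = (fderiv ℂ g (f w)) ((fderiv ℂ f w) b) :=
      congrArg _ hab
    have h5 : ∀ c, (fderiv ℂ g (f w)) ((fderiv ℂ f w) c) = c := fun c => by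
      have := congrArg (fun L : E →L[ℂ] E => L c) h3
      exact this
    rwa [h5, h5] at h4
  refine ⟨(LinearEquiv.ofInjectiveEndo _ hinj).toContinuousLinearEquiv, ?_⟩
  have h6 : (((LinearEquiv.ofInjectiveEndo _ hinj).toContinuousLinearEquiv : E ≃L[ℂ] E) :
      E →L[ℂ] E) = fderiv ℂ f w := by
    ext v
    rfl
  rw [h6]
  exact hf.hasFDerivAt

/-- **The node charts have bijective derivatives.** -/
theorem kap_hasFDerivAt (ν : Fin 15) {w : ℂ × ℂ} (hw : w ∈ W) :
    ∃ f' : (ℂ × ℂ) ≃L[ℂ] (ℂ × ℂ), HasFDerivAt (kap ν) (f' : (ℂ × ℂ) →L[ℂ] (ℂ × ℂ)) w :=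
  exists_equiv_of_leftInv (differentiableAt_kap ν hw)
    (differentiableAt_kapInv ν (kap_mem ν hw))
    (by
      filter_upwards [isOpen_W.mem_nhds hw] with z hz
      exact kapInv_kap ν hz)

theorem kap_injOn (ν : Fin 15) : InjOn (kap ν) W := by
  intro a ha b hb h
  rw [← kapInv_kap ν ha, h, kapInv_kap ν hb]

end Vale.Agent.P300.H749
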