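import Vale.Agent.P300.H921.TorMod
import Vale.Agent.P300.H749.CmpCpx
import Vale.Agent.P300.H749.KapD
import Vale.Agent.P300.ASM.Sph2

/-!
# The complex structure of `X_F` (helper749)

`cpxModels`: complex data on 921's models `D.models E` of the completion of a covering of `U`.
-/

set_option linter.all false

open Set Filter Topology Metric
open scoped ContDiff Manifold

namespace Vale.Agent.P300.Cpx

open Vale.Agent.P300.H573 Vale.Agent.P300.Mod Vale.Agent.P300.H753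

/-- `ℂ²` and `ℂ × ℂ`, linear -/
noncomputable def cE2 : (ℂ × ℂ) ≃L[ℂ] E2 :=
  ContinuousLinearEquiv.equivOfInverse
    (ContinuousLinearMap.pi fun i : Fin 2 =>
      ![ContinuousLinearMap.fst ℂ ℂ ℂ, ContinuousLinearMap.snd ℂ ℂ ℂ] i)
    ((ContinuousLinearMap.proj (R := ℂ) (φ := fun _ : Fin 2 => ℂ) 0).prod
      (ContinuousLinearMap.proj (R := ℂ) (φ := fun _ : Fin 2 => ℂ) 1))
    (fun x => rfl)
    (fun z => by
      ext i
      fin_cases i <;> rfl)

theorem cE2_apply (x : ℂ × ℂ) : cE2 x = toE2 x := by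
  ext i
  fin_cases i <;> rfl

theorem cE2_symm_apply (z : E2) : cE2.symm z = toP z := rfl

/-- the derivative of `kc ∘ pw`, in the coordinates of `ℂ²` -/
theorem hasFDerivAt_pw {p q : ℕ} (hp : p ≠ 0) (hq : q ≠ 0) {z : E2} (h0 : z 0 ≠ 0) (h1 : z 1 ≠ 0)
    {kc : ℂ × ℂ → ℂ × ℂ} (hk : ∃ f' : (ℂ × ℂ) ≃L[ℂ] (ℂ × ℂ),
      HasFDerivAt kc (f' : (ℂ × ℂ) →L[ℂ] (ℂ × ℂ)) (pw p q (toP z))) :
    ∃ g' : E2 ≃L[ℂ] E2,
      HasFDerivAt (fun w : E2 => toE2 (kc (pw p q (toP w)))) (g' : E2 →L[ℂ] E2) z := by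
  obtain ⟨f', hf'⟩ := hk
  obtain ⟨g', hg'⟩ := hasFDerivAt_pow2 hp hq h0 h1
  refine ⟨g'.trans (cE2.symm.trans (f'.trans cE2)), ?_⟩
  have h2 : HasFDerivAt (fun w : E2 => cE2.symm (![w 0 ^ p, w 1 ^ q] : E2))
      ((cE2.symm : E2 →L[ℂ] ℂ × ℂ).comp (g' : E2 →L[ℂ] E2)) z :=
    (cE2.symm : E2 →L[ℂ] ℂ × ℂ).hasFDerivAt.comp z hg'
  have h3 : HasFDerivAt (fun w : E2 => kc (cE2.symm (![w 0 ^ p, w 1 ^ q] : E2)))
      ((f' : (ℂ × ℂ) →L[ℂ] (ℂ × ℂ)).comp
        ((cE2.symm : E2 →L[ℂ] ℂ × ℂ).comp (g' : E2 →L[ℂ] E2))) z := by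
    have h4 : HasFDerivAt kc (f' : (ℂ × ℂ) →L[ℂ] (ℂ × ℂ))
        ((fun w : E2 => cE2.symm (![w 0 ^ p, w 1 ^ q] : E2)) z) := hf'
    exact h4.comp z h2
  have h5 := (cE2 : (ℂ × ℂ) →L[ℂ] E2).hasFDerivAt.comp z h3
  refine (h5.congr_of_eventuallyEq (Eventually.of_forall fun w => ?_)).congr_fderiv ?_
  · show toE2 (kc (pw p q (toP w))) = cE2 (kc (cE2.symm (![w 0 ^ p, w 1 ^ q] : E2)))
    rw [cE2_apply]
    rfl
  · rfl

section general

variable {R : Set (ℂ × ℂ)} {ι U X0 S Y : Type} [TopologicalSpace X0] [TopologicalSpace U]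
  [TopologicalSpace Y] {kap : ι → ℂ × ℂ → U} {pr : X0 → U}

theorem OmE_nonempty (hR0 : ((0 : ℂ), (0 : ℂ)) ∈ R) {p q : ℕ} (hp : 0 < p) (hq : 0 < q) :
    (OmE R p q).Nonempty := by
  refine ⟨0, ?_⟩
  show pw p q (toP 0) ∈ R
  have : pw p q (toP 0) = ((0 : ℂ), (0 : ℂ)) := by
    show ((0 : ℂ) ^ p, (0 : ℂ) ^ q) = (0, 0)
    rw [zero_pow hp.ne', zero_pow hq.ne']
  rw [this]
  exact hR0

/-- **The complex data on the models of the completion.** `cU` are the coordinates of `U`, `kc ν`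
is the chart `kap ν` in these coordinates. -/
noncomputable def cpxModels (D : Lifts R kap pr S) (E : YData R kap Y)
    (hR0 : ((0 : ℂ), (0 : ℂ)) ∈ R) (cU : U → ℂ × ℂ) (kc : ι → ℂ × ℂ → ℂ × ℂ)
    (hkc : ∀ ν, ∀ w ∈ Rp R, cU (kap ν w) = kc ν w)
    (hd : ∀ ν, ∀ w ∈ Rp R, ∃ f' : (ℂ × ℂ) ≃L[ℂ] (ℂ × ℂ),
      HasFDerivAt (kc ν) (f' : (ℂ × ℂ) →L[ℂ] (ℂ × ℂ)) w) : CpxModels (D.models E) where
  Ω (i : D.I) := OmE R (D.pp i) (D.qq i)
  Ω_open (i : D.I) := isOpen_OmE (D.node i.1).opR _ _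
  Ω_ne (i : D.I) := OmE_nonempty hR0 (D.ord' i).p0 (D.ord' i).q0
  φ (i : D.I) := Homeomorph.refl (D.M i)
  reg (i : D.I) z h0 h1 := ⟨h0, h1⟩
  G0 x := toE2 (cU (pr x))
  diff (i : D.I) z hz := by
    have hz' : (z : E2) 0 ≠ 0 ∧ (z : E2) 1 ≠ 0 := hz
    have hw : pw (D.pp i) (D.qq i) (toP (z : E2)) ∈ Rp R := pw_mem_Rp ⟨z.2, hz'.1, hz'.2⟩
    obtain ⟨g', hg'⟩ := hasFDerivAt_pw (D.ord' i).p0.ne' (D.ord' i).q0.ne' hz'.1 hz'.2
      (hd i.1 _ hw)
    refine ⟨g', _, hg', ?_⟩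
    intro w hw
    have hw' : (w : E2) 0 ≠ 0 ∧ (w : E2) 1 ≠ 0 := hw
    have hwR : pw (D.pp i) (D.qq i) (toP (w : E2)) ∈ Rp R := pw_mem_Rp ⟨w.2, hw'.1, hw'.2⟩
    show toE2 (cU (pr (D.h i ⟨w, hw⟩))) = toE2 (kc i.1 (pw (D.pp i) (D.qq i) (toP (w : E2))))
    rw [D.pr_h, hkc i.1 _ hwR]

end general

/-! ### the frozen table of helper142 -/

section frozen

variable {S X0 Y : Type} [TopologicalSpace X0] [TopologicalSpace Y] {pr : X0 → H142.U}

theorem zero_mem_R : ((0 : ℂ), (0 : ℂ)) ∈ H142.R := by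
  intro t ht
  have h : (0 : ℂ) ≠ (t : ℂ) := by
    intro h
    have h1 : t = 0 := by exact_mod_cast h.symm
    linarith
  refine ⟨h, h, ?_⟩
  simpa using h

/-- **The complex data of `X_F`**, for 921's `D.models E`. -/
noncomputable def cpxF (D : Lifts H142.R kapU pr S) (E : YData H142.R kapU Y) :
    CpxModels (D.models E) :=
  cpxModels D E zero_mem_R (fun x => (x : ℂ × ℂ)) H142.kap
    (fun ν w hw => kapU_val (Rp_subset_W hw))
    (fun ν w hw => H749.kap_hasFDerivAt ν (Rp_subset_W hw))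

variable (D : Lifts H142.R kapU pr S) (E : YData H142.R kapU Y)

@[simp] theorem cpxF_Ω (i : D.I) : (cpxF D E).Ω i = OmE H142.R (D.pp i) (D.qq i) := rfl

theorem cpxF_φ (i : D.I) : (cpxF D E).φ i = Homeomorph.refl (D.M i) := rfl

theorem cpxF_G0 (x : X0) : (cpxF D E).G0 x = toE2 (pr x : ℂ × ℂ) := rfl

/-- `X_F` is a complex manifold. -/
theorem isManifold_F [T2Space Y] [LocallyCompactSpace Y] :
    letI := (cpxF D E).atlas.charted
    IsManifold 𝓘(ℂ, E2) ω (D.models E).Cmp := (cpxF D E).atlas.isManifold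

theorem t2Space_F [T2Space Y] [LocallyCompactSpace Y] : T2Space (D.models E).Cmp := inferInstance

theorem finite_models_I [Finite S] : Finite (D.models E).I := D.finite_I

theorem compactSpace_F [T2Space Y] [CompactSpace Y] [Finite S] :
    CompactSpace (D.models E).Cmp := by
  haveI := finite_models_I D E
  exact (D.models E).compactSpace

theorem connectedSpace_F [T2Space Y] [ConnectedSpace X0] :
    ConnectedSpace (D.models E).Cmp := (D.models E).connectedSpace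

theorem secondCountable_F [T2Space Y] [LocallyCompactSpace Y] [Countable S] :
    SecondCountableTopology (D.models E).Cmp := by
  haveI : Countable (D.models E).I := D.countable_I
  haveI : ∀ i, SecondCountableTopology ((D.models E).M i) := fun i =>
    (inferInstance : SecondCountableTopology (D.M i))
  exact (D.models E).secondCountable

theorem finite_fibre_F [T2Space Y] [LocallyCompactSpace Y] [Finite S] (y : Y) :
    ((D.models E).proj ⁻¹' {y}).Finite := by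
  haveI := finite_models_I D E
  exact ASM.finite_fibre_proj (D.models E) y

end frozen

end Vale.Agent.P300.Cpx
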