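import Mathlib.Topology.Filter
import Mathlib.Topology.Connected.LocallyConnected
import Mathlib.Topology.Maps.Proper.Basic
import Mathlib.Topology.Covering.Basic
import Mathlib.Topology.OpenPartialHomeomorph.Basic

/-!
# The Fox completion of a spread (helper749)

`q : Y → S`. An end over `t` is a filter on `Y` which is generated by one connected component of
`q ⁻¹' N` for every open `N ∋ t`. The completion `FX q` is the set of all pairs `(t, l)`, `l` an end
over `t`, with the topology induced by the topology of `Filter Y`.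
-/

set_option linter.all false

open Set Filter Topology

namespace Vale.Agent.P300.Fox

variable {Y S : Type*} [TopologicalSpace Y] [TopologicalSpace S]

/-- `C` is a connected component of `q ⁻¹' N`. -/
def IsComp (q : Y → S) (N : Set S) (C : Set Y) : Prop :=
  ∃ y ∈ q ⁻¹' N, C = connectedComponentIn (q ⁻¹' N) y

theorem IsComp.subset {q : Y → S} {N : Set S} {C : Set Y} (h : IsComp q N C) : C ⊆ q ⁻¹' N := by
  obtain ⟨y, hy, rfl⟩ := h
  exact connectedComponentIn_subset _ _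

theorem IsComp.isPreconnected {q : Y → S} {N : Set S} {C : Set Y} (h : IsComp q N C) :
    IsPreconnected C := by
  obtain ⟨y, hy, rfl⟩ := h
  exact isPreconnected_connectedComponentIn

theorem IsComp.eq_of_mem {q : Y → S} {N : Set S} {C C' : Set Y} (h : IsComp q N C)
    (h' : IsComp q N C') {y : Y} (hy : y ∈ C) (hy' : y ∈ C') : C = C' := by
  obtain ⟨z, hz, rfl⟩ := h
  obtain ⟨z', hz', rfl⟩ := h'
  rw [connectedComponentIn_eq hy, connectedComponentIn_eq hy']

/-- `l` is an end of `q : Y → S` over `t`. -/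
structure IsEnd (q : Y → S) (t : S) (l : Filter Y) : Prop where
  ne : l.NeBot
  comp : ∀ N, IsOpen N → t ∈ N → ∃ C, IsComp q N C ∧ C ∈ l
  gen : ∀ A ∈ l, ∃ N, IsOpen N ∧ t ∈ N ∧ ∃ C, IsComp q N C ∧ C ∈ l ∧ C ⊆ A

theorem IsEnd.tendsto {q : Y → S} {t : S} {l : Filter Y} (h : IsEnd q t l) :
    Tendsto q l (𝓝 t) := by
  rw [tendsto_nhds]
  intro N hN ht
  obtain ⟨C, hC, hCl⟩ := h.comp N hN ht
  exact mem_of_superset hCl hC.subset

/-- ends over the same point which meet are equal -/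
theorem IsEnd.eq {q : Y → S} {t : S} {l l' : Filter Y} (h : IsEnd q t l) (h' : IsEnd q t l')
    (hne : (l ⊓ l').NeBot) : l = l' := by
  have key : ∀ {l l' : Filter Y}, IsEnd q t l → IsEnd q t l' → (l ⊓ l').NeBot → l' ≤ l := by
    intro l l' h h' hne A hA
    obtain ⟨N, hN, ht, C, hC, hCl, hCA⟩ := h.gen A hA
    obtain ⟨C', hC', hCl'⟩ := h'.comp N hN ht
    obtain ⟨y, hy, hy'⟩ := (inf_neBot_iff.1 hne hCl hCl')
    rw [hC'.eq_of_mem hC hy' hy] at hCl'
    exact mem_of_superset hCl' hCA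
  exact le_antisymm (key h' h (by rwa [inf_comm])) (key h h' hne)

theorem IsEnd.disjoint {q : Y → S} {t : S} {l l' : Filter Y} (h : IsEnd q t l)
    (h' : IsEnd q t l') (hne : l ≠ l') : ∃ A ∈ l, ∃ B ∈ l', Disjoint A B := by
  by_contra hcon
  push Not at hcon
  apply hne
  refine h.eq h' ?_
  rw [inf_neBot_iff]
  intro A hA B hB
  exact Set.not_disjoint_iff_nonempty_inter.1 (hcon A hA B hB)

/-- The completion. -/
def FX (q : Y → S) : Type _ := {x : S × Filter Y // IsEnd q x.1 x.2}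

namespace FX

variable {q : Y → S}

instance : TopologicalSpace (FX q) :=
  inferInstanceAs (TopologicalSpace {x : S × Filter Y // IsEnd q x.1 x.2})

/-- the projection of the completion -/
def F (x : FX q) : S := x.1.1

/-- the end -/
def fl (x : FX q) : Filter Y := x.1.2

theorem isEnd (x : FX q) : IsEnd q x.F x.fl := x.2

theorem continuous_F : Continuous (F : FX q → S) := continuous_fst.comp continuous_subtype_val

theorem continuous_fl : Continuous (fl : FX q → Filter Y) :=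
  continuous_snd.comp continuous_subtype_val

theorem ext' {x y : FX q} (h1 : x.F = y.F) (h2 : x.fl = y.fl) : x = y :=
  Subtype.ext (Prod.ext h1 h2)

theorem isOpen_mem (A : Set Y) : IsOpen {x : FX q | A ∈ x.fl} :=
  Filter.isOpen_setOf_mem.preimage continuous_fl

instance [T2Space S] : T2Space (FX q) := by
  refine ⟨fun x y hxy => ?_⟩
  by_cases h : x.F = y.F
  · have h2 : x.fl ≠ y.fl := fun h2 => hxy (ext' h h2)
    obtain ⟨A, hA, B, hB, hAB⟩ := x.isEnd.disjoint (h ▸ y.isEnd) h2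
    refine ⟨_, _, isOpen_mem A, isOpen_mem B, hA, hB, ?_⟩
    rw [Set.disjoint_left]
    intro z hz hz'
    have := z.isEnd.ne
    obtain ⟨w, hw, hw'⟩ := Filter.nonempty_of_mem (inter_mem hz hz')
    exact Set.disjoint_left.1 hAB hw hw'
  · obtain ⟨A, B, hA, hB, hxA, hyB, hAB⟩ := t2_separation h
    exact ⟨_, _, hA.preimage continuous_F, hB.preimage continuous_F, hxA, hyB,
      hAB.preimage _⟩

end FX

/-- A local completion of `q` over the open set `P`. -/
structure LocCompl (q : Y → S) (P : Set S) (M : Type*) [TopologicalSpace M] where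
  /-- projection -/
  f : M → S
  /-- regular part -/
  R : Set M
  /-- identification of the regular part -/
  ψ : R → Y
  f_cont : Continuous f
  f_mem : ∀ m, f m ∈ P
  R_open : IsOpen R
  ψ_emb : IsOpenEmbedding ψ
  ψ_range : range ψ = q ⁻¹' P
  q_ψ : ∀ r : R, q (ψ r) = f r
  conn : ∀ m, ∀ G ∈ 𝓝 m, ∃ G', IsOpen G' ∧ m ∈ G' ∧ G' ⊆ G ∧ IsConnected (G' ∩ R)
  iso : ∀ m, ∀ G ∈ 𝓝 m, ∃ N, IsOpen N ∧ f m ∈ N ∧ N ⊆ P ∧ ∃ G', IsOpen G' ∧ m ∈ G' ∧ G' ⊆ G ∧
    G' ⊆ f ⁻¹' N ∧ ∀ x ∈ closure G', f x ∈ N → x ∈ G'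
  proper : ∀ t ∈ P, ∀ C, IsComp q P C → ∃ N, IsOpen N ∧ t ∈ N ∧ ∃ K : Set M, IsCompact K ∧
    ∀ r : R, ψ r ∈ C → f r ∈ N → (r : M) ∈ K

namespace LocCompl

variable {q : Y → S} {P : Set S} {M : Type*} [TopologicalSpace M] (c : LocCompl q P M)

/-- the end of the point `m` -/
def en (m : M) : Filter Y := map c.ψ (comap Subtype.val (𝓝 m))

theorem mem_en {m : M} {A : Set Y} : A ∈ c.en m ↔ ∃ G ∈ 𝓝 m, ∀ r : c.R, (r : M) ∈ G → c.ψ r ∈ A := by
  unfold en
  rw [mem_map, mem_comap]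
  rfl

theorem en_ne (m : M) : (c.en m).NeBot := by
  unfold en
  refine Filter.NeBot.map ?_ _
  rw [comap_neBot_iff]
  intro G hG
  obtain ⟨G', -, -, hG', h⟩ := c.conn m G hG
  obtain ⟨x, hx, hx'⟩ := h.nonempty
  exact ⟨⟨x, hx'⟩, hG' hx⟩

/-- image in `Y` of the regular part of a subset of `M` -/
def im (G : Set M) : Set Y := c.ψ '' (Subtype.val ⁻¹' G)

theorem im_open {G : Set M} (hG : IsOpen G) : IsOpen (c.im G) :=
  c.ψ_emb.isOpenMap _ (hG.preimage continuous_subtype_val)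

theorem im_mem {m : M} {G : Set M} (hG : G ∈ 𝓝 m) : c.im G ∈ c.en m :=
  c.mem_en.2 ⟨G, hG, fun r hr => ⟨r, hr, rfl⟩⟩

theorem im_conn {G : Set M} (hG : IsConnected (G ∩ c.R)) : IsPreconnected (c.im G) := by
  unfold im
  refine IsPreconnected.image ?_ _ c.ψ_emb.continuous.continuousOn
  rw [← Topology.IsInducing.subtypeVal.isPreconnected_image, Subtype.image_preimage_coe]
  rw [inter_comm]
  exact hG.isPreconnected

theorem im_disjoint {G G' : Set M} (h : Disjoint G G') : Disjoint (c.im G) (c.im G') := by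
  unfold im
  exact (h.preimage _).image c.ψ_emb.injective.injOn (subset_univ _) (subset_univ _)

theorem mem_im {G : Set M} {r : c.R} : c.ψ r ∈ c.im G ↔ (r : M) ∈ G := by
  unfold im
  rw [c.ψ_emb.injective.mem_set_image]
  rfl

theorem isEnd_en (m : M) : IsEnd q (c.f m) (c.en m) := by
  have hcomp : ∀ N, IsOpen N → c.f m ∈ N → ∃ C, IsComp q N C ∧ C ∈ c.en m := by
    intro N hN hm
    obtain ⟨G, hG, hmG, hGN, hconn⟩ := c.conn m (c.f ⁻¹' N) ((hN.preimage c.f_cont).mem_nhds hm)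
    obtain ⟨x, hx, hx'⟩ := hconn.nonempty
    have hsub : c.im G ⊆ q ⁻¹' N := by
      rintro _ ⟨r, hr, rfl⟩
      show q (c.ψ r) ∈ N
      rw [c.q_ψ]
      exact hGN hr
    have hmem : c.ψ ⟨x, hx'⟩ ∈ c.im G := c.mem_im.2 hx
    refine ⟨connectedComponentIn (q ⁻¹' N) (c.ψ ⟨x, hx'⟩), ⟨_, hsub hmem, rfl⟩, ?_⟩
    refine mem_of_superset (c.im_mem (hG.mem_nhds hmG)) ?_
    exact (c.im_conn hconn).subset_connectedComponentIn hmem hsub
  refine ⟨c.en_ne m, hcomp, ?_⟩
  intro A hA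
  obtain ⟨G, hG, hGA⟩ := c.mem_en.1 hA
  obtain ⟨N, hN, hmN, hNP, G', hG', hmG', hGG', hGN', hcl⟩ := c.iso m G hG
  obtain ⟨C, hC, hCm⟩ := hcomp N hN hmN
  refine ⟨N, hN, hmN, C, hC, hCm, ?_⟩
  have h1 : C ⊆ c.im G' := by
    have ho1 := c.im_open hG'
    have ho2 : IsOpen (c.im (c.f ⁻¹' N \ closure G')) :=
      c.im_open ((hN.preimage c.f_cont).sdiff isClosed_closure)
    refine hC.isPreconnected.subset_left_of_subset_union ho1 ho2 ?_ ?_ ?_
    · refine c.im_disjoint ?_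
      rw [Set.disjoint_left]
      intro x hx hx'
      exact hx'.2 (subset_closure hx)
    · intro y hy
      have hyN := hC.subset hy
      have hyP : y ∈ range c.ψ := by
        rw [c.ψ_range]
        exact hNP hyN
      obtain ⟨r, rfl⟩ := hyP
      have hrN : c.f r ∈ N := by
        rw [← c.q_ψ]
        exact hyN
      by_cases hr : (r : M) ∈ G'
      · exact Or.inl (c.mem_im.2 hr)
      · right
        refine c.mem_im.2 ⟨hrN, fun h => hr (hcl _ h hrN)⟩
    · have := c.en_ne m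
      exact Filter.nonempty_of_mem (inter_mem hCm (c.im_mem (hG'.mem_nhds hmG')))
  refine h1.trans ?_
  rintro _ ⟨r, hr, rfl⟩
  exact hGA r (hGG' hr)

/-- the chart of the completion -/
def ch (m : M) : FX q := ⟨(c.f m, c.en m), c.isEnd_en m⟩

@[simp] theorem ch_F (m : M) : (c.ch m).F = c.f m := rfl
@[simp] theorem ch_fl (m : M) : (c.ch m).fl = c.en m := rfl

theorem ch_injective [T2Space M] : Function.Injective c.ch := by
  intro m m' h
  by_contra hne
  obtain ⟨G, G', hG, hG', hm, hm', hd⟩ := t2_separation hne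
  have h1 : c.en m = c.en m' := by
    have := congrArg FX.fl h
    exact this
  have h2 := c.im_mem (hG.mem_nhds hm)
  have h3 := c.im_mem (hG'.mem_nhds hm')
  rw [← h1] at h3
  have := c.en_ne m
  obtain ⟨y, hy, hy'⟩ := Filter.nonempty_of_mem (inter_mem h2 h3)
  exact Set.disjoint_left.1 (c.im_disjoint hd) hy hy'

theorem continuous_en : Continuous c.en := by
  rw [continuous_iff_continuousAt]
  intro m
  unfold ContinuousAt
  rw [Filter.tendsto_nhds]
  intro A hA
  obtain ⟨G, hG, hGA⟩ := c.mem_en.1 hA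
  filter_upwards [eventually_mem_nhds_iff.2 hG] with m' hm'
  exact c.mem_en.2 ⟨G, hm', hGA⟩

theorem continuous_ch : Continuous c.ch :=
  Continuous.subtype_mk (c.f_cont.prodMk c.continuous_en) _

theorem exists_ch [T2Space S] (hP : IsOpen P) (x : FX q) (hx : x.F ∈ P) : ∃ m, c.ch m = x := by
  obtain ⟨C, hC, hCx⟩ := x.isEnd.comp P hP hx
  obtain ⟨N, hN, hxN, K, hK, hKC⟩ := c.proper x.F hx C hC
  set μ : Filter M := map Subtype.val (comap c.ψ x.fl) with hμ
  have hxne := x.isEnd.ne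
  have hrange : range c.ψ ∈ x.fl := by
    rw [c.ψ_range]
    exact mem_of_superset hCx hC.subset
  have hne : (comap c.ψ x.fl).NeBot := by
    rw [comap_neBot_iff]
    intro A hA
    obtain ⟨y, hyA, r, rfl⟩ := Filter.nonempty_of_mem (inter_mem hA hrange)
    exact ⟨r, hyA⟩
  have hμne : μ.NeBot := hne.map _
  have hKμ : K ∈ μ := by
    rw [hμ, mem_map, mem_comap]
    refine ⟨C ∩ q ⁻¹' N, inter_mem hCx (x.isEnd.tendsto (hN.mem_nhds hxN)), ?_⟩
    intro r hr
    refine hKC r hr.1 ?_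
    rw [← c.q_ψ]
    exact hr.2
  obtain ⟨m, hmK, hm⟩ := hK.exists_clusterPt (f := μ) (le_principal_iff.2 hKμ)
  have hfm : c.f m = x.F := by
    have h1 : Tendsto c.f μ (𝓝 x.F) := by
      rw [hμ, tendsto_map'_iff]
      have h2 : Tendsto (q ∘ c.ψ) (comap c.ψ x.fl) (𝓝 x.F) :=
        x.isEnd.tendsto.comp tendsto_comap
      refine h2.congr fun r => ?_
      exact c.q_ψ r
    have h3 : ClusterPt (c.f m) (𝓝 x.F) := hm.map c.f_cont.continuousAt h1
    exact eq_of_nhds_neBot h3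
  refine ⟨m, FX.ext' hfm ?_⟩
  refine (c.isEnd_en m).eq (hfm ▸ x.isEnd) ?_
  rw [inf_neBot_iff]
  intro A hA B hB
  obtain ⟨G, hG, hGA⟩ := c.mem_en.1 hA
  have hB' : Subtype.val '' (c.ψ ⁻¹' B) ∈ μ := by
    rw [hμ]
    exact image_mem_map (preimage_mem_comap hB)
  obtain ⟨_, hz, r, hr, rfl⟩ := clusterPt_iff_nonempty.1 hm hG hB'
  exact ⟨c.ψ r, hGA r hz, hr⟩

theorem range_ch [T2Space S] (hP : IsOpen P) : range c.ch = FX.F ⁻¹' P := by
  ext x
  constructor
  · rintro ⟨m, rfl⟩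
    exact c.f_mem m
  · intro hx
    exact c.exists_ch hP x hx

theorem isOpenMap_ch [T2Space S] (hP : IsOpen P) : IsOpenMap c.ch := by
  rw [isOpenMap_iff_nhds_le]
  intro m G hG
  rw [mem_map] at hG
  obtain ⟨N, hN, hmN, hNP, G', hG', hmG', hGG', hGN', hcl⟩ := c.iso m _ hG
  have h1 : {x : FX q | x.F ∈ N} ∩ {x : FX q | c.im G' ∈ x.fl} ∈ 𝓝 (c.ch m) := by
    refine IsOpen.mem_nhds ((hN.preimage FX.continuous_F).inter (FX.isOpen_mem _)) ?_
    exact ⟨hmN, c.im_mem (hG'.mem_nhds hmG')⟩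
  refine mem_of_superset h1 ?_
  rintro x ⟨hx1, hx2⟩
  obtain ⟨m', rfl⟩ := c.exists_ch hP x (hNP hx1)
  refine hGG' (hcl m' ?_ hx1)
  rw [mem_closure_iff_nhds]
  intro G'' hG''
  have := c.en_ne m'
  obtain ⟨y, hy, r, hr, rfl⟩ := Filter.nonempty_of_mem (inter_mem hx2 (c.im_mem hG''))
  exact ⟨r, hr, c.mem_im.1 hy⟩

theorem isOpenEmbedding_ch [T2Space S] [T2Space M] (hP : IsOpen P) : IsOpenEmbedding c.ch :=
  .of_continuous_injective_isOpenMap c.continuous_ch c.ch_injective (c.isOpenMap_ch hP)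

/-- at regular points the end is the neighbourhood filter -/
theorem en_coe (r : c.R) : c.en r = 𝓝 (c.ψ r) := by
  unfold en
  rw [← nhds_subtype_eq_comap, c.ψ_emb.map_nhds_eq]

end LocCompl

end Vale.Agent.P300.Fox
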