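import Vale.Agent.P300.H749.Cov
import Vale.Agent.P300.H242.YVal
import Vale.Agent.P300.Spec.Geo

/-!
# The complex structure of `X_F`, over helper37's `UT` (helper749)

Everything of `Inst.lean`, `Inst2.lean`, `Cov.lean` for the charts `Spec.kapU ν.castSucc` of
helper210, and the value `yE` of `YData` for helper242's `Y`.
-/

set_option linter.all false

open Set Filter Topology Metric
open scoped ContDiff Manifold OnePoint LinearAlgebra.Projectivization

namespace Vale.Agent.P300.Cpx

open Vale.Agent.P300.H573 Vale.Agent.P300.Mod Vale.Agent.P300.H753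

/-- coordinates on the base for charts `kk` of the frozen table -/
structure Co {U' : Type} (kk : Fin 15 → ℂ × ℂ → U') where
  /-- coordinates -/
  c : U' → ℂ × ℂ
  inj : Function.Injective c
  mem : ∀ u, c u ∈ H142.U
  kk_c : ∀ ν, ∀ w ∈ H142.W, c (kk ν w) = H142.kap ν w

/-- helper921's charts -/
noncomputable def coM : Co kapU where
  c := Subtype.val
  inj := Subtype.val_injective
  mem u := u.2
  kk_c ν w hw := kapU_val hw

/-- helper210's charts with values in `TOR.Arr.UT` -/
noncomputable def kkE : Fin 15 → ℂ × ℂ → TOR.Arr.UT := fun ν : Fin 15 => Spec.kapU ν.castSucc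

/-- helper210's charts -/
noncomputable def coE : Co (fun ν : Fin 15 => Spec.kapU ν.castSucc) where
  c := Subtype.val
  inj := Subtype.val_injective
  mem u := u.2
  kk_c ν w hw := by
    rw [Spec.kapU_coe ν.castSucc hw, Spec.kapE_castSucc]

section gen

variable {U' S X0 Y : Type} [TopologicalSpace U'] [TopologicalSpace X0] [TopologicalSpace Y]
  {kk : Fin 15 → ℂ × ℂ → U'} {pr : X0 → U'}

/-- **The complex data of `X_F`** -/
noncomputable def cpxK (K : Co kk) (D : Lifts H142.R kk pr S) (E : YData H142.R kk Y) :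
    CpxModels (D.models E) :=
  cpxModels D E zero_mem_R K.c H142.kap
    (fun ν w hw => K.kk_c ν w (Rp_subset_W hw))
    (fun ν w hw => H749.kap_hasFDerivAt ν (Rp_subset_W hw))

variable (K : Co kk) (D : Lifts H142.R kk pr S) (E : YData H142.R kk Y)

@[simp] theorem cpxK_Ω (i : D.I) : (cpxK K D E).Ω i = OmE H142.R (D.pp i) (D.qq i) := rfl

theorem cpxK_φ (i : D.I) : (cpxK K D E).φ i = Homeomorph.refl (D.M i) := rfl

theorem cpxK_G0 (x : X0) : (cpxK K D E).G0 x = toE2 (K.c (pr x)) := rfl

/-- `X_F` is a complex manifold. -/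
theorem isManifold_K [T2Space Y] [LocallyCompactSpace Y] :
    letI := (cpxK K D E).atlas.charted
    IsManifold 𝓘(ℂ, E2) ω (D.models E).Cmp := (cpxK K D E).atlas.isManifold

theorem finite_I_K [Finite S] : Finite (D.models E).I := D.finite_I

theorem compactSpace_K [T2Space Y] [CompactSpace Y] [Finite S] :
    CompactSpace (D.models E).Cmp := by
  haveI := finite_I_K D E
  exact (D.models E).compactSpace

theorem connectedSpace_K [T2Space Y] [ConnectedSpace X0] :
    ConnectedSpace (D.models E).Cmp := (D.models E).connectedSpace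

theorem secondCountable_K [T2Space Y] [LocallyCompactSpace Y] [Countable S] :
    SecondCountableTopology (D.models E).Cmp := by
  haveI : Countable (D.models E).I := D.countable_I
  haveI : ∀ i, SecondCountableTopology ((D.models E).M i) := fun i =>
    (inferInstance : SecondCountableTopology (D.M i))
  exact (D.models E).secondCountable

theorem finite_fibre_K [T2Space Y] [LocallyCompactSpace Y] [Finite S] (y : Y) :
    ((D.models E).proj ⁻¹' {y}).Finite := by
  haveI := finite_I_K D E
  exact ASM.finite_fibre_proj (D.models E) y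

section maps

variable [T2Space Y] [LocallyCompactSpace Y]

theorem atlas_target_K (i : D.I) :
    ((cpxK K D E).atlas.e i).target = OmE H142.R (D.pp i) (D.qq i) :=
  (cpxK K D E).atlas_target i

theorem atlas_source_K (i : D.I) :
    ((cpxK K D E).atlas.e i).source = range ((D.models E).hat i) :=
  (cpxK K D E).atlas_source i

theorem atlas_symm_K (i : D.I) (z : OmE H142.R (D.pp i) (D.qq i)) :
    ((cpxK K D E).atlas.e i).symm z = (D.models E).hat i z := (cpxK K D E).atlas_symm i z

theorem atlas_hat_K (i : D.I) (z : OmE H142.R (D.pp i) (D.qq i)) :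
    (cpxK K D E).atlas.e i ((D.models E).hat i z) = z := (cpxK K D E).atlas_hat i z

theorem proj_symm_K (i : D.I) {z : E2} (hz : z ∈ OmE H142.R (D.pp i) (D.qq i)) :
    (D.models E).proj (((cpxK K D E).atlas.e i).symm z) =
      E.kY i.1 (pw (D.pp i) (D.qq i) (toP z)) := by
  rw [atlas_symm_K K D E i ⟨z, hz⟩]
  exact (D.models E).proj_hat (i : (D.models E).I) (⟨z, hz⟩ : D.M i)

/-- the projection in the charts -/
theorem proj_eq_K (i : D.I) {x : (D.models E).Cmp} (hx : x ∈ ((cpxK K D E).atlas.e i).source) :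
    toP ((cpxK K D E).atlas.e i x) ∈ Om H142.R (D.pp i) (D.qq i) ∧
    (D.models E).proj x = E.kY i.1 (pw (D.pp i) (D.qq i) (toP ((cpxK K D E).atlas.e i x))) := by
  have h1 := ((cpxK K D E).atlas.e i).map_source hx
  rw [atlas_target_K] at h1
  refine ⟨h1, ?_⟩
  rw [← proj_symm_K K D E i h1, ((cpxK K D E).atlas.e i).left_inv hx]

/-- **Holomorphy of the coordinates.** `c : Y → OnePoint ℂ` continuous, `c = g` on `U`. -/
theorem isHolP1_K {c : Y → OnePoint ℂ} (hc : Continuous c) {g : ℂ × ℂ → ℂ}
    (hg : DifferentiableOn ℂ g H142.U)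
    (hcg : ∀ u : U', c (E.inc u) = ((g (K.c u) : ℂ) : OnePoint ℂ)) :
    letI := (cpxK K D E).atlas.charted
    Emb.IsHolP1 E2 (fun x => c ((D.models E).proj x)) := by
  refine isHolP1_of_charts (cpxK K D E).atlas (hc.comp (D.models E).continuous_proj) ?_
  intro i
  change D.I at i
  refine ⟨fun z => g (H142.kap i.1 (pw (D.pp i) (D.qq i) (toP z))), ?_, ?_⟩
  · intro z hz
    rw [atlas_target_K] at hz
    obtain ⟨hz1, hz2⟩ := hz
    have h0 : z 0 ≠ 0 := left_ne_zero_of_mul hz2
    have h1 : z 1 ≠ 0 := right_ne_zero_of_mul hz2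
    have hw : pw (D.pp i) (D.qq i) (toP z) ∈ Rp H142.R := pw_mem_Rp ⟨hz1, h0, h1⟩
    have hW := Rp_subset_W hw
    have hgd : DifferentiableAt ℂ g (H142.kap i.1 (pw (D.pp i) (D.qq i) (toP z))) :=
      hg.differentiableAt (Spec.isOpen_U.mem_nhds (Spec.kap_mem i.1 hW))
    have hk : DifferentiableAt ℂ (H142.kap i.1) (pw (D.pp i) (D.qq i) (toP z)) :=
      H749.differentiableAt_kap i.1 hW
    have hp : DifferentiableAt ℂ (fun z : E2 => pw (D.pp i) (D.qq i) (toP z)) z := by
      show DifferentiableAt ℂ (fun z : E2 => (z 0 ^ (D.pp i), z 1 ^ (D.qq i))) z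
      fun_prop
    exact (hgd.comp z (hk.comp z hp)).differentiableWithinAt
  · intro z hz
    rw [atlas_target_K] at hz
    obtain ⟨hz1, hz2⟩ := hz
    have h0 : z 0 ≠ 0 := left_ne_zero_of_mul hz2
    have h1 : z 1 ≠ 0 := right_ne_zero_of_mul hz2
    have hw : pw (D.pp i) (D.qq i) (toP z) ∈ Rp H142.R := pw_mem_Rp ⟨hz1, h0, h1⟩
    show c ((D.models E).proj (((cpxK K D E).atlas.e i).symm z)) = _
    rw [proj_symm_K K D E i hz1, ← E.inc_kap i.1 _ hw, hcg, K.kk_c i.1 _ (Rp_subset_W hw)]

/-- **The finite map of `X_F` to `(ℙ¹)ⁿ`**, in helper232's form. -/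
theorem exists_finite_map_K [Finite S] {n : ℕ} {c : Fin n → Y → OnePoint ℂ}
    (hc : ∀ j, Continuous (c j)) {g : Fin n → ℂ × ℂ → ℂ}
    (hg : ∀ j, DifferentiableOn ℂ (g j) H142.U)
    (hcg : ∀ j, ∀ u : U', c j (E.inc u) = ((g j (K.c u) : ℂ) : OnePoint ℂ))
    (hsep : ∀ y y', (∀ j, c j y = c j y') → y = y') :
    letI := (cpxK K D E).atlas.charted
    ∃ F : Fin n → (D.models E).Cmp → ℙ ℂ (Fin (1 + 1) → ℂ),
      (∀ j, IsHolomorphicToProjective E2 (F j)) ∧
      ∀ x, {y | ∀ j, F j y = F j x}.Finite := by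
  letI := (cpxK K D E).atlas.charted
  refine ⟨fun j x => toP1 (c j ((D.models E).proj x)), fun j => ?_, fun x => ?_⟩
  · exact isHolomorphicToProjective_of_holP1 (isHolP1_K K D E (hc j) (hg j) (hcg j))
  · refine (finite_fibre_K D E ((D.models E).proj x)).subset ?_
    intro y hy
    exact hsep _ _ fun j => toP1_injective (hy j)

end maps

end gen

section cov

variable {U' S S' X0 X0' Y : Type} [TopologicalSpace U'] [TopologicalSpace X0]
  [TopologicalSpace X0'] [TopologicalSpace Y] {kk : Fin 15 → ℂ × ℂ → U'} {pr : X0 → U'}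
  {pr' : X0' → U'} [T2Space Y] [LocallyCompactSpace Y]
  {D : Lifts H142.R kk pr S} {D' : Lifts H142.R kk pr' S'} {f : S' → S} {g : X0' → X0}

/-- **The covering of the completions is holomorphic.** -/
theorem isHolomorphicCovering_K (K : Co kk) (H : LHom D' D f g) (hf : Function.Surjective f)
    (E : YData H142.R kk Y) :
    letI := (cpxK K D E).atlas.charted; letI := (cpxK K D' E).atlas.charted
    IsHolomorphicCovering E2 (H.hom E).ext :=
  isHolomorphicCovering_ext (cpxK K D E) (cpxK K D' E) (H.hom E) (H.isCoveringMap_ext E)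
    (H.surjective_ext hf E) (fun i' p h => (H.hom_M0 E i' p).1 h)
    (fun x => by
      show toE2 (K.c (pr (g x))) = toE2 (K.c (pr' x))
      rw [H.hpr])

end cov

/-! ### helper242's `Y` -/

/-- **The compactification `Y` of `UT`**, for helper210's charts. -/
noncomputable def yE : YData H142.R (fun ν : Fin 15 => Spec.kapU ν.castSucc) H242.Y where
  kY := H242.kapY
  cont := H242.yData.cont
  inj := H242.yData.inj
  opn := H242.yData.opn
  cover := H242.yData.cover
  inc := fun p : TOR.Arr.UT => H242.io (p : ℂ × ℂ)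
  inc_inj := fun p q h => Subtype.ext (H242.io_injOn p.2 q.2 h)
  inc_kap ν w hw := by
    have h : w ∈ H142.W := Mod.Rp_subset_W hw
    show H242.io ((Spec.kapU ν.castSucc w : TOR.Arr.UT) : ℂ × ℂ) = H242.kapY ν w
    rw [H242.kapY_eq ν h, Spec.kapU_coe ν.castSucc h, Spec.kapE_castSucc]
  bdry ν w hw h := by
    refine H242.yData.bdry ν w hw ?_
    obtain ⟨p, hp⟩ := h
    exact ⟨⟨(p : ℂ × ℂ), p.2⟩, hp⟩

@[simp] theorem yE_kY (ν : Fin 15) : yE.kY ν = H242.kapY ν := rfl

theorem yE_inc (p : TOR.Arr.UT) : yE.inc p = H242.io (p : ℂ × ℂ) := rfl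

/-- the cross ratios in the coordinates of `U` -/
noncomputable def gY (j : Fin 5) (z : ℂ × ℂ) : ℂ := H242.cc (z.1 / z.2, z.2) j

theorem differentiableOn_gY (j : Fin 5) : DifferentiableOn ℂ (gY j) H142.U := by
  have h1 : DifferentiableOn ℂ (fun z : ℂ × ℂ => (z.1 / z.2, z.2)) H142.U := by
    refine DifferentiableOn.prodMk ?_ differentiable_snd.differentiableOn
    have h2 : DifferentiableOn ℂ (fun z : ℂ × ℂ => (z.2)⁻¹) H142.U :=
      DifferentiableOn.fun_inv (by fun_prop) (fun z hz => hz.2.2.1)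
    exact (differentiable_fst.differentiableOn.mul h2).congr fun z _ => div_eq_mul_inv _ _
  refine (ASM.differentiableOn_cc j).comp h1 ?_
  intro z hz
  exact H242.U0_sub (H242.toUV_mem hz)

theorem crd_inc (j : Fin 5) (p : TOR.Arr.UT) :
    H242.crd j (yE.inc p) = ((gY j (p : ℂ × ℂ) : ℂ) : OnePoint ℂ) :=
  H242.crd_io p.2 j

section yE

variable {S X0 : Type} [TopologicalSpace X0] {pr : X0 → TOR.Arr.UT}
  (D : Lifts H142.R (fun ν : Fin 15 => Spec.kapU ν.castSucc) pr S)

/-- **The complex data of `X_F`**, `Y` of helper242. -/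
noncomputable abbrev cpxE : CpxModels (D.models yE) := cpxK coE D yE

theorem isManifold_E :
    letI := (cpxE D).atlas.charted
    IsManifold 𝓘(ℂ, E2) ω (D.models yE).Cmp := isManifold_K coE D yE

theorem t2Space_E : T2Space (D.models yE).Cmp := inferInstance

theorem compactSpace_E [Finite S] : CompactSpace (D.models yE).Cmp := compactSpace_K D yE

theorem connectedSpace_E [ConnectedSpace X0] : ConnectedSpace (D.models yE).Cmp :=
  connectedSpace_K D yE

theorem secondCountable_E [Countable S] : SecondCountableTopology (D.models yE).Cmp :=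
  secondCountable_K D yE

theorem finite_fibre_E [Finite S] (y : H242.Y) : ((D.models yE).proj ⁻¹' {y}).Finite :=
  finite_fibre_K D yE y

/-- the five coordinates are holomorphic -/
theorem isHolP1_E (j : Fin 5) :
    letI := (cpxE D).atlas.charted
    Emb.IsHolP1 E2 (fun x => H242.crd j ((D.models yE).proj x)) :=
  isHolP1_K coE D yE (H242.continuous_crd j) (differentiableOn_gY j) (crd_inc j)

/-- **The finite map of `X_F` to `(ℙ¹)⁵`** -/
theorem exists_finite_map_E [Finite S] :
    letI := (cpxE D).atlas.charted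
    ∃ F : Fin 5 → (D.models yE).Cmp → ℙ ℂ (Fin (1 + 1) → ℂ),
      (∀ j, IsHolomorphicToProjective E2 (F j)) ∧
      ∀ x, {y | ∀ j, F j y = F j x}.Finite :=
  exists_finite_map_K coE D yE H242.continuous_crd differentiableOn_gY crd_inc
    (fun _ _ h => H242.crd_ext h)

end yE

section covE

variable {S S' X0 X0' : Type} [TopologicalSpace X0] [TopologicalSpace X0']
  {pr : X0 → TOR.Arr.UT} {pr' : X0' → TOR.Arr.UT}
  {D : Lifts H142.R (fun ν : Fin 15 => Spec.kapU ν.castSucc) pr S}
  {D' : Lifts H142.R (fun ν : Fin 15 => Spec.kapU ν.castSucc) pr' S'} {f : S' → S} {g : X0' → X0}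

/-- **The covering of the completions is holomorphic.** -/
theorem isHolomorphicCovering_E (H : LHom D' D f g) (hf : Function.Surjective f) :
    letI := (cpxE D).atlas.charted; letI := (cpxE D').atlas.charted
    IsHolomorphicCovering E2 (H.hom yE).ext := isHolomorphicCovering_K coE H hf yE

end covE

end Vale.Agent.P300.Cpx
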